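import Vale.Agent.P052.Cochain

/-! The Borsuk-Ulam theorem, via barycentric subdivision and Ky Fan cochains. -/

namespace Vale.Agent.P052

open Multiset

section subdiv
variable {V : Type*} [NormedAddCommGroup V] [NormedSpace ℝ V] [DecidableEq V]

/-- barycentre -/
noncomputable def bary (s : Multiset V) : V := ((s.card : ℝ)⁻¹) • s.sum

/-- pull back of a cochain under barycentric subdivision of `k`-vertex simplices -/
noncomputable def sd : ℕ → (Multiset V → ZMod 2) → Multiset V → ZMod 2
  | 0, u, _ => u 0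
  | k + 1, u, s => cob (sd k (fun t => u (bary s ::ₘ t))) s

lemma sd_add (k : ℕ) : ∀ (u u' : Multiset V → ZMod 2) (s : Multiset V),
    sd k (fun t => u t + u' t) s = sd k u s + sd k u' s := by
  induction k with
  | zero => intro u u' s; rfl
  | succ k ih =>
    intro u u' s
    simp only [sd]
    rw [← cob_add]
    apply cob_congr
    intro v _
    exact ih _ _ _

lemma sd_cob (k : ℕ) : ∀ (u : Multiset V → ZMod 2) (s : Multiset V),
    sd (k + 1) (cob u) s = cob (sd k u) s := by
  induction k with
  | zero =>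
    intro u s
    simp only [sd]
    apply cob_congr
    intro v _
    simp [cob]
  | succ k ih =>
    intro u s
    rw [sd]
    have h1 : (fun t => cob u (bary s ::ₘ t))
        = fun t => u t + cob (fun r => u (bary s ::ₘ r)) t := by
      funext t; exact cob_cons u _ t
    rw [h1]
    have h2 : sd (k + 1) (fun t => u t + cob (fun r => u (bary s ::ₘ r)) t)
        = fun r => sd (k + 1) u r + cob (sd k (fun r => u (bary s ::ₘ r))) r := by
      funext r
      rw [sd_add, ← ih]
    rw [h2, cob_add, cob_cob, add_zero]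

omit [DecidableEq V] in
lemma bary_neg (s : Multiset V) : bary (s.map Neg.neg) = - bary s := by
  unfold bary
  rw [Multiset.card_map, Multiset.sum_map_neg]
  simp

lemma sd_neg (k : ℕ) : ∀ (u : Multiset V → ZMod 2) (s : Multiset V),
    sd k (fun t => u (t.map Neg.neg)) s = sd k u (s.map Neg.neg) := by
  induction k with
  | zero => intro u s; simp [sd]
  | succ k ih =>
    intro u s
    simp only [sd]
    rw [← cob_map, bary_neg]
    apply cob_congr
    intro v _
    rw [← ih]
    simp only [Multiset.map_cons]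

omit [DecidableEq V] in
lemma bary_mem {K : Set V} (hK : Convex ℝ K) (s : Multiset V) (h0 : s ≠ 0)
    (hs : ∀ v ∈ s, v ∈ K) : bary s ∈ K := by
  induction s using Multiset.induction_on with
  | empty => exact absurd rfl h0
  | cons a t ih =>
    by_cases ht : t = 0
    · subst ht
      simpa [bary] using hs a (mem_cons_self _ _)
    · have hb := ih ht (fun v hv => hs v (mem_cons_of_mem hv))
      have hc : (0 : ℝ) < t.card := by exact_mod_cast Multiset.card_pos.2 ht
      have := hK (hs a (mem_cons_self _ _)) hb (a := ((t.card : ℝ) + 1)⁻¹)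
        (b := (t.card : ℝ) * ((t.card : ℝ) + 1)⁻¹) (by positivity) (by positivity)
        (by field_simp; ring)
      convert this using 1
      unfold bary
      rw [Multiset.card_cons, Multiset.sum_cons, smul_add, smul_smul]
      push_cast
      congr 2
      field_simp

omit [DecidableEq V] in
lemma bary_dist (s : Multiset V) (D : ℝ) (hD : ∀ v ∈ s, ∀ w ∈ s, dist v w ≤ D)
    (w : V) (hw : w ∈ s) : dist w (bary s) ≤ (1 - (s.card : ℝ)⁻¹) * D := by
  obtain ⟨t, rfl⟩ := Multiset.exists_cons_of_mem hw
  have h1 : bary (w ::ₘ t) - w = (((t.card : ℝ) + 1)⁻¹) • (t.map fun v => v - w).sum := by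
    unfold bary
    rw [Multiset.card_cons, Multiset.sum_cons, Multiset.sum_map_sub, Multiset.map_id',
      Multiset.map_const', Multiset.sum_replicate, ← Nat.cast_smul_eq_nsmul ℝ]
    push_cast
    have : ((t.card : ℝ) + 1) ≠ 0 := by positivity
    rw [smul_add, smul_sub, smul_smul]
    have h : ((t.card : ℝ) + 1)⁻¹ * t.card = 1 - ((t.card : ℝ) + 1)⁻¹ := by field_simp; ring
    rw [h, sub_smul, one_smul]
    abel
  have h2 : ‖(t.map fun v => v - w).sum‖ ≤ t.card * D := by
    refine (norm_multiset_sum_le _).trans ?_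
    rw [Multiset.map_map]
    have := Multiset.sum_le_card_nsmul (t.map ((fun x => ‖x‖) ∘ fun v => v - w)) D (by
      intro x hx
      obtain ⟨v, hv, rfl⟩ := Multiset.mem_map.1 hx
      simpa [dist_eq_norm] using hD v (mem_cons_of_mem hv) w (mem_cons_self _ _))
    simpa using this
  rw [dist_comm, dist_eq_norm, h1, norm_smul, Multiset.card_cons]
  push_cast
  have hp : (0 : ℝ) < (t.card : ℝ) + 1 := by positivity
  rw [Real.norm_of_nonneg (by positivity)]
  calc _ ≤ ((t.card : ℝ) + 1)⁻¹ * (t.card * D) := by gcongr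
    _ = _ := by field_simp; ring

/-- small simplices inside a convex set -/
def Small (k : ℕ) (K : Set V) (D : ℝ) (t : Multiset V) : Prop :=
  t.card = k ∧ (∀ v ∈ t, v ∈ K) ∧ ∀ v ∈ t, ∀ w ∈ t, dist v w ≤ D

lemma sd_local (n : ℕ) (D : ℝ) (hD : 0 ≤ D) (k : ℕ) : k ≤ n + 1 →
    ∀ (K : Set V) (_ : Convex ℝ K) (u u' : Multiset V → ZMod 2) (s : Multiset V),
    Small k K D s → (∀ t, Small k K ((1 - ((n : ℝ) + 1)⁻¹) * D) t → u t = u' t) →
    sd k u s = sd k u' s := by
  induction k with
  | zero =>
    intro _ K _ u u' s _ h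
    exact h 0 ⟨rfl, by simp, by simp⟩
  | succ k ih =>
    intro hk K hK u u' s hs h
    simp only [sd]
    apply cob_congr
    intro v hv
    have hs0 : s ≠ 0 := by rintro rfl; simp at hv
    have hθ : (1 - (s.card : ℝ)⁻¹) * D ≤ (1 - ((n : ℝ) + 1)⁻¹) * D := by
      apply mul_le_mul_of_nonneg_right _ hD
      rw [hs.1]
      have h1 : ((k + 1 : ℕ) : ℝ) ≤ (n : ℝ) + 1 := by exact_mod_cast hk
      have h2 : (0 : ℝ) < ((k + 1 : ℕ) : ℝ) := by positivity
      have := inv_anti₀ h2 h1
      linarith
    have hθ0 : 0 ≤ (1 - ((n : ℝ) + 1)⁻¹) * D := by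
      apply mul_nonneg _ hD
      have : ((n : ℝ) + 1)⁻¹ ≤ 1 := inv_le_one_of_one_le₀ (by linarith [Nat.cast_nonneg (α := ℝ) n])
      linarith
    apply ih (by omega) (K ∩ Metric.closedBall (bary s) ((1 - ((n : ℝ) + 1)⁻¹) * D))
      (hK.inter (convex_closedBall _ _))
    · refine ⟨by rw [Multiset.card_erase_of_mem hv, hs.1]; rfl, fun w hw => ?_,
        fun a ha b hb => hs.2.2 a (mem_of_mem_erase ha) b (mem_of_mem_erase hb)⟩
      have hw' := mem_of_mem_erase hw
      exact ⟨hs.2.1 w hw', (bary_dist s D hs.2.2 w hw').trans hθ⟩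
    · intro t ht
      apply h
      refine ⟨by rw [Multiset.card_cons, ht.1], fun w hw => ?_, fun a ha b hb => ?_⟩
      · rcases Multiset.mem_cons.1 hw with rfl | hw
        · exact bary_mem hK s hs0 hs.2.1
        · exact (ht.2.1 w hw).1
      · rcases Multiset.mem_cons.1 ha with rfl | ha <;> rcases Multiset.mem_cons.1 hb with rfl | hb
        · simpa using hθ0
        · rw [dist_comm]; exact (ht.2.1 b hb).2
        · exact (ht.2.1 a ha).2
        · exact ht.2.2 a ha b hb

/-- iterated subdivision -/
noncomputable def sdN (k : ℕ) : ℕ → (Multiset V → ZMod 2) → Multiset V → ZMod 2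
  | 0, u => u
  | N + 1, u => sd k (sdN k N u)

lemma sdN_add (k N : ℕ) (u u' : Multiset V → ZMod 2) :
    sdN k N (fun t => u t + u' t) = fun s => sdN k N u s + sdN k N u' s := by
  induction N with
  | zero => rfl
  | succ N ih => funext s; simp only [sdN]; rw [ih, sd_add]

lemma sdN_cob (k N : ℕ) (u : Multiset V → ZMod 2) :
    sdN (k + 1) N (cob u) = cob (sdN k N u) := by
  induction N with
  | zero => rfl
  | succ N ih => funext s; simp only [sdN]; rw [ih, sd_cob]

lemma sdN_neg (k N : ℕ) (u : Multiset V → ZMod 2) :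
    sdN k N (fun t => u (t.map Neg.neg)) = fun s => sdN k N u (s.map Neg.neg) := by
  induction N with
  | zero => rfl
  | succ N ih => funext s; simp only [sdN]; rw [ih, sd_neg]

lemma sdN_zero (N : ℕ) (u : Multiset V → ZMod 2) : sdN 0 N u 0 = u 0 := by
  induction N with
  | zero => rfl
  | succ N ih => simp only [sdN, sd, ih]

lemma sdN_const_zero (k N : ℕ) : sdN k N (fun _ : Multiset V => (0 : ZMod 2)) = fun _ => 0 := by
  have := sdN_add k N (fun _ : Multiset V => (0 : ZMod 2)) (fun _ => 0)
  funext s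
  have h := congrFun this s
  simp only [add_zero] at h
  rw [two_self] at h
  exact h

lemma sdN_local (n k : ℕ) (hk : k ≤ n + 1) (K : Set V) (hK : Convex ℝ K)
    (u u' : Multiset V → ZMod 2) (N : ℕ) : ∀ (D : ℝ) (_ : 0 ≤ D) (s : Multiset V),
    Small k K D s → (∀ t, Small k K ((1 - ((n : ℝ) + 1)⁻¹) ^ N * D) t → u t = u' t) →
    sdN k N u s = sdN k N u' s := by
  induction N with
  | zero => intro D _ s hs h; exact h s (by simpa using hs)
  | succ N ih =>
    intro D hD s hs h
    simp only [sdN]
    apply sd_local n D hD k hk K hK _ _ s hs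
    intro t ht
    have hθ0 : 0 ≤ (1 - ((n : ℝ) + 1)⁻¹) * D := by
      apply mul_nonneg _ hD
      have : ((n : ℝ) + 1)⁻¹ ≤ 1 := inv_le_one_of_one_le₀ (by linarith [Nat.cast_nonneg (α := ℝ) n])
      linarith
    apply ih _ hθ0 t ht
    intro r hr
    apply h
    rwa [pow_succ, mul_assoc]

/-- evaluation on the boundary of the cross-polytope spanned by `± e 0, …, ± e (k-1)` -/
noncomputable def cross (e : ℕ → V) : ℕ → (Multiset V → ZMod 2) → ZMod 2
  | 0, u => u 0
  | k + 1, u => cross e k (fun t => u (e k ::ₘ t)) + cross e k (fun t => u (- e k ::ₘ t))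

omit [NormedSpace ℝ V] [DecidableEq V] in
lemma cross_add (e : ℕ → V) (k : ℕ) : ∀ u u' : Multiset V → ZMod 2,
    cross e k (fun t => u t + u' t) = cross e k u + cross e k u' := by
  induction k with
  | zero => intro u u'; rfl
  | succ k ih => intro u u'; simp only [cross]; rw [ih, ih]; ring

omit [NormedSpace ℝ V] in
lemma cross_cob (e : ℕ → V) (k : ℕ) : ∀ u : Multiset V → ZMod 2, cross e k (cob u) = 0 := by
  induction k with
  | zero => intro u; simp [cross]
  | succ k ih =>
    intro u
    simp only [cross, cob_cons]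
    rw [cross_add, cross_add]
    have h1 := ih (fun r => u (e k ::ₘ r))
    have h2 := ih (fun r => u (- e k ::ₘ r))
    have h3 := two_self (cross e k u)
    change cross e k (fun t => cob (fun r => u (e k ::ₘ r)) t) = 0 at h1
    change cross e k (fun t => cob (fun r => u (- e k ::ₘ r)) t) = 0 at h2
    rw [h1, h2]
    change cross e k u + 0 + (cross e k u + 0) = 0
    linear_combination h3

omit [NormedSpace ℝ V] [DecidableEq V] in
lemma cross_neg (e : ℕ → V) (k : ℕ) : ∀ u : Multiset V → ZMod 2,
    cross e k (fun t => u (t.map Neg.neg)) = cross e k u := by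
  induction k with
  | zero => intro u; simp [cross]
  | succ k ih =>
    intro u
    simp only [cross, Multiset.map_cons, neg_neg]
    rw [ih (fun t => u (- e k ::ₘ t)), ih (fun t => u (e k ::ₘ t)), add_comm]

omit [NormedSpace ℝ V] [DecidableEq V] in
lemma cross_local (e : ℕ → V) (k : ℕ) : ∀ u u' : Multiset V → ZMod 2,
    (∀ (t : Multiset V) (σ : ℕ → Bool), t.card = k →
      (∀ v ∈ t, ∃ i < k, v = if σ i then e i else - e i) → u t = u' t) →
    cross e k u = cross e k u' := by
  induction k with
  | zero => intro u u' h; exact h 0 (fun _ => true) rfl (by simp)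
  | succ k ih =>
    intro u u' h
    simp only [cross]
    have key : ∀ (b : Bool), cross e k (fun t => u ((if b then e k else - e k) ::ₘ t))
        = cross e k (fun t => u' ((if b then e k else - e k) ::ₘ t)) := by
      intro b
      apply ih
      intro t σ ht hσ
      apply h _ (Function.update σ k b) (by rw [Multiset.card_cons, ht])
      intro v hv
      rcases Multiset.mem_cons.1 hv with rfl | hv
      · exact ⟨k, by omega, by simp⟩
      · obtain ⟨i, hi, rfl⟩ := hσ v hv
        exact ⟨i, by omega, by rw [Function.update_of_ne (by omega)]⟩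
    have h1 := key true
    have h2 := key false
    simp only [if_true, Bool.false_eq_true, if_false] at h1 h2
    rw [h1, h2]

/-- Tucker's lemma in limit form. -/
theorem tucker (n : ℕ) (e : ℕ → V) (S : Set V)
    (hS : ∀ σ : ℕ → Bool, ∃ K : Set V, Convex ℝ K ∧ K ⊆ S ∧
      ∀ i < n + 1, (if σ i then e i else - e i) ∈ K)
    (he : ∀ i, ‖e i‖ ≤ 1) (c : V → ℕ) (hc : ∀ x ∈ S, c x / 2 < n)
    (hneg : ∀ x ∈ S, c (-x) = flip (c x)) (η : ℝ) (hη : 0 < η)
    (hcomp : ∀ x ∈ S, ∀ y ∈ S, dist x y < η → c x / 2 = c y / 2 → c x = c y) : False := by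
  have hθ : (1 - ((n : ℝ) + 1)⁻¹) < 1 := by
    have : 0 < ((n : ℝ) + 1)⁻¹ := by positivity
    linarith
  obtain ⟨N, hN⟩ := exists_pow_lt_of_lt_one (x := η / 2) (by positivity) hθ
  set U : Multiset V → ZMod 2 := fun t => alt 0 (t.map c) with hU
  have hsmall : ∀ k K, K ⊆ S → ∀ t, Small k K ((1 - ((n : ℝ) + 1)⁻¹) ^ N * 2) t →
      NoComp (t.map c) := by
    intro k K hK t ht a ha b hb hab
    obtain ⟨x, hx, rfl⟩ := Multiset.mem_map.1 ha
    obtain ⟨y, hy, rfl⟩ := Multiset.mem_map.1 hb
    exact hcomp x (hK (ht.2.1 x hx)) y (hK (ht.2.1 y hy))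
      ((ht.2.2 x hx y hy).trans_lt (by linarith)) hab
  have hbase : ∀ k ≤ n + 1, ∀ (t : Multiset V) (σ : ℕ → Bool), t.card = k →
      (∀ v ∈ t, ∃ i < k, v = if σ i then e i else - e i) →
      ∃ K : Set V, Convex ℝ K ∧ K ⊆ S ∧ Small k K 2 t := by
    intro k hk t σ ht hσ
    obtain ⟨K, hK, hKS, hKe⟩ := hS σ
    have hn : ∀ v ∈ t, ‖v‖ ≤ 1 := by
      intro v hv
      obtain ⟨i, _, rfl⟩ := hσ v hv
      split_ifs <;> simpa using he i
    refine ⟨K, hK, hKS, ht, fun v hv => ?_, fun v hv w hw => ?_⟩
    · obtain ⟨i, hi, rfl⟩ := hσ v hv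
      exact hKe i (by omega)
    · have := dist_le_norm_add_norm v w
      linarith [hn v hv, hn w hw]
  have step : ∀ k ≤ n, cross e (k + 1) (sdN (k + 1) N U) = cross e k (sdN k N U) := by
    intro k hk
    have h1 : cross e (k + 1) (sdN (k + 1) N U)
        = cross e k (fun t => sdN (k + 1) N (fun r => U r + U (r.map Neg.neg)) (e k ::ₘ t)) := by
      rw [sdN_add, sdN_neg, cross_add]
      simp only [cross, Multiset.map_cons]
      rw [cross_neg e k (fun t => sdN (k + 1) N U (- e k ::ₘ t))]
    have h2 : cross e k (fun t => sdN (k + 1) N (fun r => U r + U (r.map Neg.neg)) (e k ::ₘ t))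
        = cross e k (fun t => sdN (k + 1) N (cob U) (e k ::ₘ t)) := by
      apply cross_local
      intro t σ ht hσ
      obtain ⟨K, hK, hKS, hsm⟩ := hbase (k + 1) (by omega) (e k ::ₘ t) (Function.update σ k true)
        (by rw [Multiset.card_cons, ht]) (by
          intro v hv
          rcases Multiset.mem_cons.1 hv with rfl | hv
          · exact ⟨k, by omega, by simp⟩
          · obtain ⟨i, hi, rfl⟩ := hσ v hv
            exact ⟨i, by omega, by rw [Function.update_of_ne (by omega)]⟩)
      apply sdN_local n (k + 1) (by omega) K hK _ _ N 2 (by norm_num) _ hsm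
      intro r hr
      have hnc := hsmall _ K hKS r hr
      have hr0 : r.map c ≠ 0 := by
        intro h
        have := congrArg Multiset.card h
        rw [Multiset.card_map, hr.1] at this
        simp at this
      simp only [hU]
      rw [cob_map c (alt 0) r, cob_alt _ 0 hr0, ← alt_flip _ 0 hnc, Multiset.map_map,
        Multiset.map_map]
      congr 2
      apply Multiset.map_congr rfl
      intro x hx
      exact hneg x (hKS (hr.2.1 x hx))
    rw [h1, h2, sdN_cob]
    simp only [cob_cons]
    rw [cross_add]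
    have := cross_cob e k (fun r => sdN k N U (e k ::ₘ r))
    change cross e k (fun t => cob (fun r => sdN k N U (e k ::ₘ r)) t) = 0 at this
    rw [this, add_zero]
  have all : ∀ k ≤ n + 1, cross e k (sdN k N U) = 1 := by
    intro k
    induction k with
    | zero => intro _; simp [cross, sdN_zero, hU]
    | succ k ih => intro hk; rw [step k (by omega), ih (by omega)]
  have h1 := all (n + 1) le_rfl
  have h2 : cross e (n + 1) (sdN (n + 1) N U)
      = cross e (n + 1) (sdN (n + 1) N (fun _ => 0)) := by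
    apply cross_local
    intro t σ ht hσ
    obtain ⟨K, hK, hKS, hsm⟩ := hbase (n + 1) le_rfl t σ ht hσ
    apply sdN_local n (n + 1) le_rfl K hK _ _ N 2 (by norm_num) _ hsm
    intro r hr
    by_contra hne
    have := alt_card n (r.map c) 0 0 (hsmall _ K hKS r hr) (by
      intro b hb
      obtain ⟨x, hx, rfl⟩ := Multiset.mem_map.1 hb
      exact ⟨Nat.zero_le _, hc x (hKS (hr.2.1 x hx))⟩) hne (Nat.zero_le _)
    rw [Multiset.card_map, hr.1] at this
    omega
  rw [h2, sdN_const_zero] at h1
  have h3 := cross_add e (n + 1) (fun _ => 0) (fun _ => 0)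
  simp only [add_zero] at h3
  rw [two_self] at h3
  rw [h3] at h1
  exact zero_ne_one h1

end subdiv

/-- the unit sphere of the l1 norm -/
def l1Sphere (ι : Type*) [Fintype ι] : Set (ι → ℝ) := {x | ∑ i, |x i| = 1}

lemma isCompact_l1Sphere (ι : Type*) [Fintype ι] : IsCompact (l1Sphere ι) := by
  apply (isCompact_closedBall (0 : ι → ℝ) 1).of_isClosed_subset
  · exact isClosed_eq (by fun_prop) continuous_const
  · intro x hx
    rw [mem_closedBall_zero_iff, pi_norm_le_iff_of_nonneg zero_le_one]
    intro i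
    rw [← (show ∑ i, |x i| = 1 from hx)]
    exact Finset.single_le_sum (f := fun i => |x i|) (fun _ _ => abs_nonneg _) (Finset.mem_univ i)

lemma ne_zero_of_mem_l1Sphere {ι : Type*} [Fintype ι] {x : ι → ℝ} (hx : x ∈ l1Sphere ι) :
    x ≠ 0 := by
  rintro rfl
  simp [l1Sphere] at hx

lemma neg_mem_l1Sphere {ι : Type*} [Fintype ι] {x : ι → ℝ} (hx : x ∈ l1Sphere ι) :
    -x ∈ l1Sphere ι := by
  simpa [l1Sphere] using hx

theorem borsuk_ulam_fin (n : ℕ) (f : (Fin (n + 1) → ℝ) → (Fin n → ℝ))
    (hf : ContinuousOn f (l1Sphere _)) (hodd : ∀ x ∈ l1Sphere (Fin (n + 1)), f (-x) = - f x) :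
    ∃ x ∈ l1Sphere (Fin (n + 1)), f x = 0 := by
  classical
  by_contra hne
  push Not at hne
  have hS := isCompact_l1Sphere (Fin (n + 1))
  have hSne : (l1Sphere (Fin (n + 1))).Nonempty :=
    ⟨Pi.single 0 1, by simp [l1Sphere, Fin.sum_univ_succ]⟩
  rcases Nat.eq_zero_or_pos n with rfl | hn
  · obtain ⟨x, hx⟩ := hSne
    exact hne x hx (Subsingleton.elim _ _)
  have : Nonempty (Fin n) := ⟨⟨0, hn⟩⟩
  obtain ⟨x0, hx0, hmin⟩ := hS.exists_isMinOn hSne hf.norm
  set m := ‖f x0‖ with hm
  have hm0 : 0 < m := norm_pos_iff.2 (hne x0 hx0)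
  obtain ⟨η, hη, hu⟩ := Metric.uniformContinuousOn_iff.1 (hS.uniformContinuousOn_of_continuous hf)
    m hm0
  have hpick : ∀ g : Fin n → ℝ, ∃ i, ∀ j, g j ≤ g i := fun g => by
    obtain ⟨i, _, hi⟩ := Finset.exists_max_image Finset.univ g Finset.univ_nonempty
    exact ⟨i, fun j => hi j (Finset.mem_univ j)⟩
  choose pick hpick using hpick
  set ix : (Fin (n + 1) → ℝ) → Fin n := fun x => pick (fun j => |f x j|) with hix
  have hbig : ∀ x ∈ l1Sphere (Fin (n + 1)), m ≤ |f x (ix x)| := by
    intro x hx
    refine (hmin hx).trans ?_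
    rw [pi_norm_le_iff_of_nonneg (abs_nonneg _)]
    intro j
    exact hpick (fun j => |f x j|) j
  refine tucker n (fun k i => if i.val = k then 1 else 0) (l1Sphere _) ?_ ?_
    (fun x => 2 * (ix x).val + if 0 < f x (ix x) then 1 else 0) ?_ ?_ η hη ?_
  · intro σ
    refine ⟨{x | (∀ i : Fin (n + 1), 0 ≤ (if σ i then 1 else -1) * x i) ∧
      ∑ i : Fin (n + 1), (if σ i then 1 else -1) * x i = 1}, ?_, ?_, ?_⟩
    · intro x hx y hy a b ha hb hab
      refine ⟨fun i => ?_, ?_⟩
      · have h1 := mul_nonneg ha (hx.1 i)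
        have h2 := mul_nonneg hb (hy.1 i)
        simp only [Pi.add_apply, Pi.smul_apply, smul_eq_mul]
        linarith
      · have : ∀ i : Fin (n + 1), (if σ i then (1 : ℝ) else -1) * (a • x + b • y) i
            = a * ((if σ i then 1 else -1) * x i) + b * ((if σ i then 1 else -1) * y i) := by
          intro i; simp only [Pi.add_apply, Pi.smul_apply, smul_eq_mul]; ring
        simp only [this, Finset.sum_add_distrib, ← Finset.mul_sum, hx.2, hy.2]
        linarith
    · intro x hx
      rw [l1Sphere, Set.mem_ofPred_eq, ← hx.2]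
      apply Finset.sum_congr rfl
      intro i _
      have := hx.1 i
      split_ifs at this ⊢
      · rw [one_mul] at this ⊢; exact abs_of_nonneg this
      · rw [neg_one_mul] at this ⊢; exact abs_of_nonpos (by linarith)
    · intro k hk
      have key : ∀ i : Fin (n + 1), (if σ i then (1 : ℝ) else -1) *
          (if σ k then (fun i : Fin (n + 1) => if i.val = k then (1 : ℝ) else 0)
            else - fun i : Fin (n + 1) => if i.val = k then (1 : ℝ) else 0) i
          = if i = ⟨k, hk⟩ then 1 else 0 := by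
        intro i
        by_cases h : i = ⟨k, hk⟩
        · subst h
          cases hσ : σ k <;> simp
        · have h' : i.val ≠ k := fun h' => h (Fin.ext h')
          cases hσ : σ k <;> simp [h, h']
      refine ⟨fun i => ?_, ?_⟩
      · rw [key]; split_ifs <;> norm_num
      · simp only [key]; simp
  · intro k
    rw [pi_norm_le_iff_of_nonneg zero_le_one]
    intro i
    split_ifs <;> simp
  · intro x _
    have := (ix x).2
    split_ifs <;> omega
  · intro x hx
    have h1 : ix (-x) = ix x := by
      simp only [hix, hodd x hx, Pi.neg_apply, abs_neg]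
    have h2 := hbig x hx
    simp only [h1, hodd x hx, Pi.neg_apply]
    unfold flip
    rcases lt_trichotomy 0 (f x (ix x)) with h | h | h
    · rw [if_pos h, if_neg (by linarith), if_neg (by omega)]; omega
    · rw [← h] at h2; simp at h2; linarith
    · have hp : 0 < -f x (ix x) := by linarith
      have hn : ¬ 0 < f x (ix x) := by linarith
      rw [if_pos hp, if_neg hn, if_pos (by omega)]
  · intro x hx y hy hd hc
    have h1 : ix x = ix y := by
      apply Fin.ext
      split_ifs at hc <;> omega
    have h2 := hbig x hx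
    have h3 := hbig y hy
    have h4 := (dist_pi_lt_iff hm0).1 (hu x hx y hy hd) (ix y)
    rw [Real.dist_eq, abs_lt] at h4
    simp only [h1] at h2 ⊢
    rw [le_abs] at h2 h3
    congr 1
    split_ifs <;> first | rfl | (exfalso; rcases h2 with h2 | h2 <;> rcases h3 with h3 | h3 <;>
      linarith [h4.1, h4.2])

/-- Borsuk-Ulam: an odd continuous map to a space with fewer coordinates has a zero. -/
theorem borsuk_ulam {ι κ : Type*} [Fintype ι] [Fintype κ] (h : Fintype.card κ < Fintype.card ι)
    (f : (ι → ℝ) → (κ → ℝ)) (hf : ContinuousOn f (l1Sphere ι))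
    (hodd : ∀ x ∈ l1Sphere ι, f (-x) = - f x) : ∃ x ∈ l1Sphere ι, f x = 0 := by
  classical
  obtain ⟨n, hn⟩ : ∃ n, Fintype.card ι = n + 1 := ⟨Fintype.card ι - 1, by omega⟩
  let a : ι ≃ Fin (n + 1) := Fintype.equivFinOfCardEq hn
  obtain ⟨b⟩ : Nonempty (κ ↪ Fin n) := Function.Embedding.nonempty_of_card_le (by simp; omega)
  have hmem : ∀ x ∈ l1Sphere (Fin (n + 1)), (fun i => x (a i)) ∈ l1Sphere ι := by
    intro x hx
    rw [l1Sphere, Set.mem_ofPred_eq, Equiv.sum_comp a (fun j => |x j|)]
    exact hx
  obtain ⟨x, hx, h0⟩ := borsuk_ulam_fin n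
    (fun x j => ∑ k, if b k = j then f (fun i => x (a i)) k else 0) (by
      rw [continuousOn_pi]
      intro j
      apply continuousOn_finsetSum
      intro k _
      split_ifs
      · exact ((continuous_apply k).comp_continuousOn
          (hf.comp (f := fun (x : Fin (n + 1) → ℝ) (i : ι) => x (a i)) (by fun_prop) hmem))
      · exact continuousOn_const) (by
      intro x hx
      funext j
      have := hodd _ (hmem x hx)
      simp only [Pi.neg_apply, ← Finset.sum_neg_distrib]
      apply Finset.sum_congr rfl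
      intro k _
      split_ifs
      · exact congrFun this k
      · simp)
  refine ⟨_, hmem x hx, ?_⟩
  funext k
  have := congrFun h0 (b k)
  simpa using this

end Vale.Agent.P052
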