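import Mathlib

/-! Finite certificates for the surgery step. -/

namespace Vale.Agent.P052

def Good (z : Fin 4 → Fin 4 → Fin 4 → ℤ) (C S T : Finset (Fin 4)) (ψ : Fin 4 → ℤ) : Prop :=
  ∑ l, ψ l = 0 ∧ (∀ i ∈ S, ∀ j ∈ T, 0 < ∑ l, ψ l * z i j l) ∧ ∀ l, l ∉ C → ψ l ≤ 0

instance (z : Fin 4 → Fin 4 → Fin 4 → ℤ) (C S T : Finset (Fin 4)) (ψ : Fin 4 → ℤ) :
    Decidable (Good z C S T ψ) := by unfold Good; infer_instance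

def Adm (N : Finset (Fin 4) → Bool) (C S T : Finset (Fin 4)) : Prop :=
  S ⊆ C ∧ T ⊆ C ∧ Disjoint S T ∧ N S = false ∧ N T = false

instance (N : Finset (Fin 4) → Bool) (C S T : Finset (Fin 4)) : Decidable (Adm N C S T) := by
  unfold Adm; infer_instance

def Cert0 (N : Finset (Fin 4) → Bool) (z : Fin 4 → Fin 4 → Fin 4 → ℤ)
    (L : List (Fin 4 → ℤ)) (C S T : Finset (Fin 4)) : Prop :=
  S.Nonempty → (N C = true ∨ (C = S ∧ T = ∅)) → ∃ ψ ∈ L, (∀ i ∈ S, 0 < ψ i) ∧ Good z C S T ψ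

instance (N : Finset (Fin 4) → Bool) (z : Fin 4 → Fin 4 → Fin 4 → ℤ)
    (L : List (Fin 4 → ℤ)) (C S T : Finset (Fin 4)) : Decidable (Cert0 N z L C S T) := by
  unfold Cert0; infer_instance

def Cert1 (N : Finset (Fin 4) → Bool) (z : Fin 4 → Fin 4 → Fin 4 → ℤ) (u : Fin 4 → ℤ)
    (L : List (Fin 4 → ℤ)) (C S T : Finset (Fin 4)) : Prop :=
  N C = true → ∃ ψ ∈ L, 0 < ∑ l, ψ l * u l ∧ Good z C S T ψ

instance (N : Finset (Fin 4) → Bool) (z : Fin 4 → Fin 4 → Fin 4 → ℤ) (u : Fin 4 → ℤ)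
    (L : List (Fin 4 → ℤ)) (C S T : Finset (Fin 4)) : Decidable (Cert1 N z u L C S T) := by
  unfold Cert1; infer_instance

/-- a list of separating functionals works for the data `N`, `z`, `u` -/
def Cert (N : Finset (Fin 4) → Bool) (z : Fin 4 → Fin 4 → Fin 4 → ℤ) (u : Fin 4 → ℤ)
    (L : List (Fin 4 → ℤ)) : Prop :=
  ∀ C S T : Finset (Fin 4), Adm N C S T → Cert0 N z L C S T ∧ Cert1 N z u L C S T

def N1 (C : Finset (Fin 4)) : Bool := decide (0 ∈ C ∧ 1 ∈ C ∧ 2 ∈ C)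

def z1 (i j l : Fin 4) : ℤ := (if l = i then 1 else 0) - (if l = j then 1 else 0)

def L1 : List (Fin 4 → ℤ) :=
  [![-2,1,1,0], ![-1,0,1,0], ![-1,1,0,0], ![1,1,-2,0], ![1,-2,0,1], ![-3,1,1,1], ![1,-1,0,0],
   ![-2,1,0,1], ![1,1,-3,1], ![1,-3,1,1], ![1,-2,1,0], ![-2,0,1,1], ![-1,0,2,-1], ![0,1,0,-1],
   ![0,2,-1,-1], ![5,-2,-2,-1], ![-2,0,3,-1], ![-2,5,-2,-1], ![0,3,-2,-1], ![0,-2,3,-1],
   ![-2,-2,5,-1], ![-1,-1,-1,3], ![1,-1,-1,1], ![-1,1,-1,1], ![-1,-1,1,1], ![1,1,-1,-1],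
   ![1,-1,1,-1], ![-1,1,1,-1]]

theorem cert1 : Cert N1 z1 ![0, 0, 0, -1] L1 := by
  unfold Cert
  decide +kernel

def N3 (C : Finset (Fin 4)) : Bool :=
  decide (3 ∈ C ∧ ((0 ∈ C ∧ 1 ∈ C) ∨ (0 ∈ C ∧ 2 ∈ C) ∨ (1 ∈ C ∧ 2 ∈ C)))

def z3 : Fin 4 → Fin 4 → Fin 4 → ℤ :=
  ![![![0,0,0,0], ![1,0,-1,0], ![1,0,-1,0], ![1,0,-1,0]],
    ![![1,0,-1,0], ![0,0,0,0], ![0,-1,-1,0], ![1,1,-1,0]],
    ![![1,-1,0,0], ![-1,1,1,0], ![0,0,0,0], ![1,1,-1,0]],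
    ![![-1,-1,-1,0], ![-1,-1,-1,0], ![-1,-1,-1,0], ![0,0,0,0]]]

def L3 : List (Fin 4 → ℤ) :=
  [![0,1,-2,1], ![1,-2,0,1], ![-2,0,1,1], ![2,1,1,-4], ![-1,-2,2,1], ![1,1,-2,0], ![0,2,1,-3],
   ![2,2,1,-5], ![2,0,1,-3], ![1,-1,-1,1], ![-1,1,-1,1], ![-1,2,-2,1], ![-1,-1,-1,3],
   ![-1,-1,1,1], ![1,1,-1,-1], ![1,-1,1,-1], ![-1,1,1,-1], ![3,-1,-1,-1], ![-1,3,-1,-1],
   ![-1,-1,3,-1], ![1,1,1,-3]]

theorem cert3 : Cert N3 z3 ![0, 0, 0, 1] L3 := by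
  unfold Cert
  decide +kernel

end Vale.Agent.P052
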