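import Mathlib

/-! Mod 2 cochains on unordered simplices (multisets), coboundary, Ky Fan cochains. -/

namespace Vale.Agent.P052

open Multiset

section cob
variable {α : Type*} [DecidableEq α]

/-- coboundary of a mod 2 cochain on multisets -/
def cob (u : Multiset α → ZMod 2) (s : Multiset α) : ZMod 2 :=
  (s.map fun v => u (s.erase v)).sum

@[simp] lemma cob_zero (u : Multiset α → ZMod 2) : cob u 0 = 0 := by simp [cob]

lemma cob_congr {u u' : Multiset α → ZMod 2} {s : Multiset α}
    (h : ∀ v ∈ s, u (s.erase v) = u' (s.erase v)) : cob u s = cob u' s := by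
  unfold cob
  rw [Multiset.map_congr rfl h]

lemma cob_cons (u : Multiset α → ZMod 2) (a : α) (t : Multiset α) :
    cob u (a ::ₘ t) = u t + cob (fun r => u (a ::ₘ r)) t := by
  unfold cob
  rw [Multiset.map_cons, Multiset.sum_cons, Multiset.erase_cons_head]
  congr 2
  apply Multiset.map_congr rfl
  intro v hv
  beta_reduce
  by_cases h : v = a
  · subst h
    rw [Multiset.erase_cons_head, Multiset.cons_erase hv]
  · rw [Multiset.erase_cons_tail _ (Ne.symm h)]

lemma cob_add (u u' : Multiset α → ZMod 2) (s : Multiset α) :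
    cob (fun r => u r + u' r) s = cob u s + cob u' s := by
  unfold cob
  rw [Multiset.sum_map_add]

lemma cob_mul (c : ZMod 2) (u : Multiset α → ZMod 2) (s : Multiset α) :
    cob (fun r => c * u r) s = c * cob u s := by
  unfold cob
  rw [Multiset.sum_map_mul_left]

lemma two_self (a : ZMod 2) : a + a = 0 := by revert a; decide

lemma cob_cob (u : Multiset α → ZMod 2) (s : Multiset α) : cob (cob u) s = 0 := by
  induction s using Multiset.induction_on generalizing u with
  | empty => simp
  | cons a t ih =>
    rw [cob_cons]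
    have : (fun r => cob u (a ::ₘ r)) = fun r => u r + cob (fun r => u (a ::ₘ r)) r := by
      funext r; exact cob_cons u a r
    rw [this, cob_add, ih, add_zero, two_self]

lemma cob_map {β : Type*} [DecidableEq β] (f : α → β) (u : Multiset β → ZMod 2)
    (s : Multiset α) : cob (fun r => u (r.map f)) s = cob u (s.map f) := by
  unfold cob
  rw [Multiset.map_map]
  congr 1
  apply Multiset.map_congr rfl
  intro v hv
  simp only [Function.comp]
  rw [Multiset.map_erase_of_mem f s hv]

end cob

section fan

/-- alternation indicator of a list of codes; parity of a code is its sign -/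
def altL : ℕ → List ℕ → ZMod 2
  | _, [] => 1
  | e, a :: l => (if a % 2 = e % 2 then 1 else 0) * altL (e + 1) l

def alt (e : ℕ) (L : Multiset ℕ) : ZMod 2 := altL e (L.sort (· ≤ ·))

lemma altL_two (e : ℕ) (l : List ℕ) : altL (e + 2) l = altL e l := by
  induction l generalizing e with
  | nil => rfl
  | cons a l ih =>
    simp only [altL]
    rw [show e + 2 + 1 = e + 1 + 2 by ring, ih, Nat.add_mod_right]

lemma alt_two (e : ℕ) (L : Multiset ℕ) : alt (e + 2) L = alt e L := altL_two _ _

@[simp] lemma alt_zero (e : ℕ) : alt e 0 = 1 := by simp [alt, altL]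

lemma alt_cons (e a : ℕ) (L : Multiset ℕ) (h : ∀ b ∈ L, a ≤ b) :
    alt e (a ::ₘ L) = (if a % 2 = e % 2 then 1 else 0) * alt (e + 1) L := by
  unfold alt
  rw [Multiset.sort_cons _ _ _ h]
  rfl

lemma sorted_induction {P : Multiset ℕ → Prop} (h0 : P 0)
    (h1 : ∀ a L, (∀ b ∈ L, a ≤ b) → P L → P (a ::ₘ L)) (L : Multiset ℕ) : P L := by
  have : ∀ l : List ℕ, l.Pairwise (· ≤ ·) → P (l : Multiset ℕ) := by
    intro l hl
    induction l with
    | nil => exact h0
    | cons a l ih =>
      rw [List.pairwise_cons] at hl
      rw [← Multiset.cons_coe]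
      exact h1 a _ (fun b hb => hl.1 b (by simpa using hb)) (ih hl.2)
  have h := this _ (Multiset.pairwise_sort L (· ≤ ·))
  rwa [Multiset.sort_eq] at h

lemma cob_alt (L : Multiset ℕ) : ∀ e, L ≠ 0 → cob (alt e) L = alt e L + alt (e + 1) L := by
  induction L using sorted_induction with
  | h0 => intro e h; exact absurd rfl h
  | h1 a L hL ih =>
    intro e _
    rw [cob_cons]
    have : cob (fun r => alt e (a ::ₘ r)) L
        = cob (fun r => (if a % 2 = e % 2 then 1 else 0) * alt (e + 1) r) L := by
      apply cob_congr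
      intro v _
      exact alt_cons e a _ (fun b hb => hL b (Multiset.mem_of_mem_erase hb))
    rw [this, cob_mul, alt_cons e a L hL, alt_cons (e + 1) a L hL, alt_two]
    by_cases h0 : L = 0
    · subst h0
      simp only [alt_zero, cob_zero]
      by_cases h : a % 2 = e % 2
      · rw [if_pos h, if_neg (by omega)]; simp
      · rw [if_neg h, if_pos (by omega)]; simp
    · rw [ih (e + 1) h0, alt_two]
      by_cases h : a % 2 = e % 2
      · rw [if_pos h, if_neg (by omega)]
        have := two_self (alt e L)
        linear_combination this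
      · rw [if_neg h, if_pos (by omega)]; simp

/-- flip the sign of a code -/
def flip (a : ℕ) : ℕ := if a % 2 = 0 then a + 1 else a - 1

def NoComp (L : Multiset ℕ) : Prop := ∀ a ∈ L, ∀ b ∈ L, a / 2 = b / 2 → a = b

lemma alt_flip (L : Multiset ℕ) : ∀ e, NoComp L → alt e (L.map flip) = alt (e + 1) L := by
  induction L using sorted_induction with
  | h0 => intro e _; simp
  | h1 a L hL ih =>
    intro e hc
    have hc' : NoComp L := fun x hx y hy => hc x (mem_cons_of_mem hx) y (mem_cons_of_mem hy)
    rw [Multiset.map_cons, alt_cons, alt_cons (e + 1) a L hL, ih _ hc']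
    · congr 1
      unfold flip
      split_ifs <;> first | rfl | omega
    · intro b hb
      obtain ⟨c, hcL, rfl⟩ := Multiset.mem_map.1 hb
      have h1 := hL c hcL
      have h2 := hc a (mem_cons_self _ _) c (mem_cons_of_mem hcL)
      unfold flip
      split_ifs <;> omega

lemma alt_ne (L : Multiset ℕ) (e a : ℕ) (h : alt e L ≠ 0) (ha : ∀ b ∈ L, a ≤ b)
    (hp : a % 2 ≠ e % 2) : a ∉ L := by
  intro hm
  rw [← Multiset.cons_erase hm, alt_cons, if_neg hp, zero_mul] at h
  · exact h rfl
  · exact fun b hb => ha b (Multiset.mem_of_mem_erase hb)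

lemma alt_card (n : ℕ) (L : Multiset ℕ) : ∀ e j, NoComp L → (∀ b ∈ L, j ≤ b / 2 ∧ b / 2 < n) →
    alt e L ≠ 0 → j ≤ n → L.card + j ≤ n := by
  induction L using sorted_induction with
  | h0 => intro e j _ _ _ h; simpa using h
  | h1 a L hL ih =>
    intro e j hc hb h _
    have hc' : NoComp L := fun x hx y hy => hc x (mem_cons_of_mem hx) y (mem_cons_of_mem hy)
    rw [alt_cons e a L hL] at h
    have hp : a % 2 = e % 2 := by
      by_contra hp; rw [if_neg hp, zero_mul] at h; exact h rfl
    rw [if_pos hp, one_mul] at h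
    have hna : a ∉ L := alt_ne L (e + 1) a h hL (by omega)
    have ha := hb a (mem_cons_self _ _)
    have := ih (e + 1) (a / 2 + 1) hc' (fun b hbL => by
      have h1 := hL b hbL
      have h2 := hc a (mem_cons_self _ _) b (mem_cons_of_mem hbL)
      have h3 := hb b (mem_cons_of_mem hbL)
      have h4 : a ≠ b := fun h => hna (h ▸ hbL)
      constructor <;> omega) h (by omega)
    rw [Multiset.card_cons]
    omega

end fan

end Vale.Agent.P052
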