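import Mathlib

/-! Positive and negative parts of real symmetric matrices, depending continuously on the matrix. -/

namespace Vale.Agent.P052

open Matrix

abbrev Mat (m : ℕ) := Matrix (Fin m) (Fin m) ℝ

variable {m : ℕ}

/-- orthonormal family -/
def Orth {r : ℕ} (v : Fin r → Fin m → ℝ) : Prop := ∀ k l, v k ⬝ᵥ v l = if k = l then 1 else 0

/-- matrix with eigenvectors `v` and eigenvalues `d` -/
def smat (v : Fin m → Fin m → ℝ) (d : Fin m → ℝ) : Mat m := ∑ k, d k • vecMulVec (v k) (v k)

def Psd (A : Mat m) : Prop := ∃ v d, Orth v ∧ (∀ k, 0 ≤ d k) ∧ A = smat v d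

lemma smat_apply (v : Fin m → Fin m → ℝ) (d : Fin m → ℝ) (i j : Fin m) :
    smat v d i j = ∑ k, d k * (v k i * v k j) := by
  simp [smat, Matrix.sum_apply, vecMulVec_apply]

lemma smat_symm (v : Fin m → Fin m → ℝ) (d : Fin m → ℝ) : (smat v d)ᵀ = smat v d := by
  ext i j
  simp only [transpose_apply, smat_apply, mul_comm]

lemma smat_sub (v : Fin m → Fin m → ℝ) (d e : Fin m → ℝ) :
    smat v d - smat v e = smat v (d - e) := by
  ext i j
  simp only [Matrix.sub_apply, smat_apply, ← Finset.sum_sub_distrib, Pi.sub_apply, sub_mul]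

lemma smat_mul {v : Fin m → Fin m → ℝ} (hv : Orth v) (d e : Fin m → ℝ) :
    smat v d * smat v e = smat v (d * e) := by
  unfold smat
  rw [Finset.sum_mul]
  apply Finset.sum_congr rfl
  intro k _
  rw [Finset.mul_sum, Finset.sum_eq_single k]
  · rw [smul_mul_smul_comm, vecMulVec_mul_vecMulVec, hv]; simp
  · intro l _ hl
    rw [smul_mul_smul_comm, vecMulVec_mul_vecMulVec, hv, if_neg (Ne.symm hl)]; simp
  · simp

lemma smat_mulVec (v : Fin m → Fin m → ℝ) (d x : Fin m → ℝ) :
    smat v d *ᵥ x = ∑ k, (d k * (v k ⬝ᵥ x)) • v k := by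
  unfold smat
  rw [Matrix.sum_mulVec]
  apply Finset.sum_congr rfl
  intro k _
  rw [smul_mulVec, vecMulVec_mulVec, mul_smul]
  simp

lemma smat_trace {v : Fin m → Fin m → ℝ} (hv : Orth v) (d : Fin m → ℝ) :
    (smat v d).trace = ∑ k, d k := by
  unfold smat
  rw [trace_sum]
  apply Finset.sum_congr rfl
  intro k _
  rw [trace_smul, trace_vecMulVec, hv]; simp

lemma exists_smat (M : Mat m) (hM : Mᵀ = M) : ∃ v d, Orth v ∧ M = smat v d := by
  have hH : M.IsHermitian := by
    rw [IsHermitian, conjTranspose_eq_transpose_of_trivial, hM]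
  refine ⟨fun k => (hH.eigenvectorBasis k).ofLp, hH.eigenvalues, fun k l => ?_, ?_⟩
  · have := orthonormal_iff_ite.1 hH.eigenvectorBasis.orthonormal k l
    rw [← this, EuclideanSpace.inner_eq_star_dotProduct, dotProduct_comm]
    simp
  · conv_lhs => rw [hH.spectral_theorem]
    ext i j
    rw [smat_apply, Unitary.conjStarAlgAut_apply, Matrix.mul_apply]
    apply Finset.sum_congr rfl
    intro k _
    rw [mul_diagonal]
    simp [star_apply]
    ring

/-- Frobenius pairing -/
def fr (A B : Mat m) : ℝ := ∑ i, ∑ j, A i j * B i j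

lemma fr_comm (A B : Mat m) : fr A B = fr B A := by simp only [fr, mul_comm]

lemma fr_sub_left (A B C : Mat m) : fr (A - B) C = fr A C - fr B C := by
  simp only [fr, Matrix.sub_apply, sub_mul, Finset.sum_sub_distrib]

lemma fr_sub_right (A B C : Mat m) : fr C (A - B) = fr C A - fr C B := by
  simp only [fr, Matrix.sub_apply, mul_sub, Finset.sum_sub_distrib]

lemma sq_le_fr (A : Mat m) (i j : Fin m) : A i j * A i j ≤ fr A A := by
  unfold fr
  refine le_trans ?_ (Finset.single_le_sum (f := fun i => ∑ j, A i j * A i j)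
    (fun i _ => Finset.sum_nonneg fun j _ => mul_self_nonneg _) (Finset.mem_univ i))
  exact Finset.single_le_sum (f := fun j => A i j * A i j) (fun j _ => mul_self_nonneg _)
    (Finset.mem_univ j)

lemma fr_self_nonneg (A : Mat m) : 0 ≤ fr A A :=
  Finset.sum_nonneg fun _ _ => Finset.sum_nonneg fun _ _ => mul_self_nonneg _

lemma Psd.symm {A : Mat m} (h : Psd A) : Aᵀ = A := by
  obtain ⟨v, d, -, -, rfl⟩ := h
  exact smat_symm v d

lemma fr_eq_trace {A B : Mat m} (hB : Bᵀ = B) : fr A B = (A * B).trace := by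
  simp only [fr, trace, diag, Matrix.mul_apply]
  apply Finset.sum_congr rfl
  intro i _
  apply Finset.sum_congr rfl
  intro j _
  conv_lhs => rw [← hB]
  rfl

lemma fr_nonneg {A B : Mat m} (hA : Psd A) (hB : Psd B) : 0 ≤ fr A B := by
  rw [fr_eq_trace hB.symm]
  obtain ⟨v, d, -, hd, rfl⟩ := hA
  obtain ⟨u, e, -, he, rfl⟩ := hB
  unfold smat
  rw [Finset.sum_mul, trace_sum]
  apply Finset.sum_nonneg
  intro k _
  rw [Finset.mul_sum, trace_sum]
  apply Finset.sum_nonneg
  intro l _
  rw [smul_mul_smul_comm, vecMulVec_mul_vecMulVec, trace_smul, trace_vecMulVec, dotProduct_smul,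
    smul_eq_mul, smul_eq_mul]
  exact mul_nonneg (mul_nonneg (hd k) (he l)) (mul_self_nonneg _)

/-- `A` and `B` are the positive and negative parts of `M` -/
structure Dec (M A B : Mat m) : Prop where
  pA : Psd A
  pB : Psd B
  sub : M = A - B
  mul : A * B = 0

lemma Dec.mul' {M A B : Mat m} (h : Dec M A B) : B * A = 0 := by
  have := congrArg transpose h.mul
  rwa [transpose_mul, h.pA.symm, h.pB.symm, transpose_zero] at this

lemma Dec.neg {M A B : Mat m} (h : Dec M A B) : Dec (-M) B A :=
  ⟨h.pB, h.pA, by rw [h.sub, neg_sub], h.mul'⟩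

lemma exists_dec (M : Mat m) (hM : Mᵀ = M) : ∃ A B, Dec M A B := by
  obtain ⟨v, d, hv, rfl⟩ := exists_smat M hM
  refine ⟨smat v (fun k => max (d k) 0), smat v (fun k => max (-d k) 0),
    ⟨v, _, hv, fun k => le_max_right _ _, rfl⟩, ⟨v, _, hv, fun k => le_max_right _ _, rfl⟩, ?_, ?_⟩
  · rw [smat_sub]
    congr 1
    funext k
    simp only [Pi.sub_apply]
    rcases le_total (d k) 0 with h | h
    · rw [max_eq_right h, max_eq_left (by linarith)]; ring
    · rw [max_eq_left h, max_eq_right (by linarith)]; ring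
  · rw [smat_mul hv]
    have : ((fun k => max (d k) 0) * fun k => max (-d k) 0) = fun _ => (0 : ℝ) := by
      funext k
      simp only [Pi.mul_apply]
      rcases le_total (d k) 0 with h | h
      · rw [max_eq_right h, zero_mul]
      · rw [max_eq_right (by linarith : -d k ≤ 0), mul_zero]
    rw [this]
    simp [smat]

lemma Dec.lip {M A B M' A' B' : Mat m} (h : Dec M A B) (h' : Dec M' A' B') :
    fr (A - A') (A - A') ≤ fr (M - M') (M - M') := by
  have h1 : fr A B = 0 := by rw [fr_eq_trace h.pB.symm, h.mul, trace_zero]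
  have h2 : fr A' B' = 0 := by rw [fr_eq_trace h'.pB.symm, h'.mul, trace_zero]
  have h3 := fr_nonneg h.pA h'.pB
  have h4 := fr_nonneg h'.pA h.pB
  have h5 := fr_self_nonneg (B - B')
  rw [h.sub, h'.sub]
  simp only [fr_sub_left, fr_sub_right] at h5 ⊢
  rw [fr_comm B A, fr_comm B A', fr_comm B' A, fr_comm B' A', fr_comm A' A] 
  linarith

lemma Dec.unique {M A B A' B' : Mat m} (h : Dec M A B) (h' : Dec M A' B') : A = A' := by
  have := h.lip h'
  ext i j
  have h2 := (sq_le_fr (A - A') i j).trans this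
  simp only [sub_self, fr, mul_zero, Finset.sum_const_zero, Matrix.sub_apply] at h2
  nlinarith [mul_self_nonneg (A i j - A' i j)]

/-- symmetric matrix with given coordinates -/
def symM (c : Sym2 (Fin m) → ℝ) : Mat m := Matrix.of fun i j => c s(i, j)

lemma symM_symm (c : Sym2 (Fin m) → ℝ) : (symM c)ᵀ = symM c := by
  ext i j
  simp [symM, Sym2.eq_swap]

lemma symM_neg (c : Sym2 (Fin m) → ℝ) : symM (-c) = - symM c := by
  ext i j; simp [symM]

lemma symM_ne {c : Sym2 (Fin m) → ℝ} (hc : c ≠ 0) : symM c ≠ 0 := by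
  intro h
  apply hc
  funext s
  induction s using Sym2.ind with
  | h i j => exact congrFun (congrFun h i) j

lemma continuous_symM : Continuous (symM (m := m)) := by
  unfold symM
  apply continuous_matrix
  intro i j
  simp only [of_apply]
  fun_prop

noncomputable def posM (c : Sym2 (Fin m) → ℝ) : Mat m :=
  (exists_dec (symM c) (symM_symm c)).choose

lemma dec_posM (c : Sym2 (Fin m) → ℝ) : Dec (symM c) (posM c) (posM (-c)) := by
  obtain ⟨B, hB⟩ := (exists_dec (symM c) (symM_symm c)).choose_spec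
  obtain ⟨B', hB'⟩ := (exists_dec (symM (-c)) (symM_symm (-c))).choose_spec
  have h : posM (-c) = B := by
    have := hB.neg
    rw [← symM_neg] at this
    exact hB'.unique this
  rw [h]
  exact hB

lemma continuous_posM : Continuous (posM (m := m)) := by
  apply continuous_matrix
  intro i j
  rw [continuous_iff_continuousAt]
  intro c
  rw [ContinuousAt, tendsto_iff_dist_tendsto_zero]
  have hc : Continuous fun c' => Real.sqrt (fr (symM c' - symM c) (symM c' - symM c)) := by
    have := continuous_symM (m := m)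
    unfold fr
    fun_prop
  have h0 := hc.tendsto c
  simp only [sub_self, fr, Matrix.zero_apply, mul_zero, Finset.sum_const_zero,
    Real.sqrt_zero] at h0
  refine squeeze_zero (fun _ => dist_nonneg) (fun c' => ?_) h0
  rw [Real.dist_eq]
  apply Real.abs_le_sqrt
  have := (sq_le_fr (posM c' - posM c) i j).trans ((dec_posM c').lip (dec_posM c))
  rw [sq]
  exact this

end Vale.Agent.P052
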