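import Vale.Agent.P052.BU
import Vale.Agent.P052.Spec

/-! Open colourings of the lines of a Euclidean space without orthogonal pairs in one colour. -/

namespace Vale.Agent.P052

open Matrix Module

/-- colour `i` of a vector `x` is present when `φ i x > 0` -/
structure Col (m : ℕ) (I : Type) where
  φ : I → (Fin m → ℝ) → ℝ
  cont : ∀ i, Continuous (φ i)
  nonneg : ∀ i x, 0 ≤ φ i x
  even : ∀ i x, φ i (-x) = φ i x
  smul : ∀ i x (c : ℝ), c ≠ 0 → 0 < φ i x → 0 < φ i (c • x)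
  cover : ∀ x, x ≠ 0 → ∃ i, 0 < φ i x
  orth : ∀ i x y, 0 < φ i x → 0 < φ i y → x ⬝ᵥ y ≠ 0

lemma exists_ray {ι I : Type*} [Fintype ι] [Fintype I] (h : Fintype.card I ≤ Fintype.card ι)
    (F : (ι → ℝ) → I → ℝ) (hF : Continuous F) (hodd : ∀ c, F (-c) = - F c) (v : I → ℝ) (i₀ : I)
    (hv : v i₀ ≠ 0) : ∃ c ∈ l1Sphere ι, ∃ τ : ℝ, 0 ≤ τ ∧ ∀ i, F c i = τ * v i := by
  classical
  have hcard : Fintype.card {i // i ≠ i₀} < Fintype.card ι :=
    lt_of_lt_of_le (Fintype.card_subtype_lt (x := i₀) (by simp)) h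
  obtain ⟨c, hc, h0⟩ := borsuk_ulam hcard
    (fun c (i : {i // i ≠ i₀}) => F c i * v i₀ - F c i₀ * v i) (by fun_prop) (by
      intro c _
      funext i
      simp only [hodd, Pi.neg_apply]
      ring)
  have key : ∀ i, F c i = (F c i₀ / v i₀) * v i := by
    intro i
    by_cases hi : i = i₀
    · subst hi; field_simp
    · have := congrFun h0 ⟨i, hi⟩
      simp only [Pi.zero_apply] at this
      field_simp
      linarith
  rcases le_total 0 (F c i₀ / v i₀) with h1 | h1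
  · exact ⟨c, hc, _, h1, key⟩
  · refine ⟨-c, neg_mem_l1Sphere hc, -(F c i₀ / v i₀), by linarith, fun i => ?_⟩
    rw [hodd, Pi.neg_apply, key i]; ring

lemma card_sym2 (m : ℕ) : Fintype.card (Sym2 (Fin m)) = (m + 1).choose 2 := by
  rw [Sym2.card]; simp

/-- the linear map given by a family of vectors -/
noncomputable def lin {r m : ℕ} (b : Fin r → Fin m → ℝ) : (Fin r → ℝ) →ₗ[ℝ] (Fin m → ℝ) :=
  Matrix.vecMulLinear (Matrix.of b)

lemma lin_apply {r m : ℕ} (b : Fin r → Fin m → ℝ) (c : Fin r → ℝ) :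
    lin b c = ∑ k, c k • b k := by
  funext j
  simp [lin, vecMul, dotProduct, Finset.sum_apply]

lemma lin_dot {r m : ℕ} {b : Fin r → Fin m → ℝ} (hb : Orth b) (c c' : Fin r → ℝ) :
    lin b c ⬝ᵥ lin b c' = c ⬝ᵥ c' := by
  rw [lin_apply, lin_apply, sum_dotProduct]
  conv_rhs => rw [dotProduct]
  apply Finset.sum_congr rfl
  intro k _
  rw [dotProduct_sum, Finset.sum_eq_single k]
  · rw [smul_dotProduct, dotProduct_smul, hb]; simp
  · intro l _ hl
    rw [smul_dotProduct, dotProduct_smul, hb, if_neg (Ne.symm hl)]; simp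
  · simp

lemma lin_ne {r m : ℕ} {b : Fin r → Fin m → ℝ} (hb : Orth b) {c : Fin r → ℝ} (hc : c ≠ 0) :
    lin b c ≠ 0 := by
  intro h
  have := lin_dot hb c c
  rw [h, zero_dotProduct] at this
  exact hc (dotProduct_self_eq_zero.1 this.symm)

lemma exists_frame {r m : ℕ} (W : Submodule ℝ (Fin m → ℝ)) (h : r ≤ finrank ℝ W) :
    ∃ b : Fin r → Fin m → ℝ, Orth b ∧ ∀ k, b k ∈ W := by
  let e : EuclideanSpace ℝ (Fin m) ≃ₗ[ℝ] (Fin m → ℝ) := WithLp.linearEquiv 2 ℝ (Fin m → ℝ)
  let W' : Submodule ℝ (EuclideanSpace ℝ (Fin m)) := W.comap e.toLinearMap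
  have hW : finrank ℝ W' = finrank ℝ W := (e.ofSubmodule' W).finrank_eq
  let o := stdOrthonormalBasis ℝ W'
  refine ⟨fun k => e (o (Fin.castLE (h.trans hW.ge) k)), fun k l => ?_,
    fun k => (o (Fin.castLE (h.trans hW.ge) k)).2⟩
  have := orthonormal_iff_ite.1 o.orthonormal (Fin.castLE (h.trans hW.ge) k)
    (Fin.castLE (h.trans hW.ge) l)
  simp only [Fin.castLE_inj] at this
  rw [← this, Submodule.coe_inner, EuclideanSpace.inner_eq_star_dotProduct, dotProduct_comm]
  simp [e]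

namespace Col

variable {m : ℕ} {I : Type} (C : Col m I)

lemma zero (i : I) : C.φ i 0 = 0 := by
  by_contra h
  have := lt_of_le_of_ne (C.nonneg i 0) (Ne.symm h)
  exact C.orth i 0 0 this this (by simp)

lemma ne_zero {i : I} {x : Fin m → ℝ} (h : 0 < C.φ i x) : x ≠ 0 := by
  rintro rfl
  rw [C.zero] at h
  exact lt_irrefl _ h

/-- the range of `P` meets colour `i` -/
def col (P : Mat m) (i : I) : Prop := ∃ v, 0 < C.φ i (P *ᵥ v)

noncomputable def g (i : I) (P : Mat m) : ℝ :=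
  sSup ((fun v => C.φ i (P *ᵥ v)) '' Metric.closedBall 0 1)

lemma continuous_g (i : I) : Continuous (C.g i) := by
  apply (isCompact_closedBall (0 : Fin m → ℝ) 1).continuous_sSup
  exact (C.cont i).comp (Continuous.matrix_mulVec continuous_fst continuous_snd)

lemma le_g (i : I) (P : Mat m) {v : Fin m → ℝ} (hv : ‖v‖ ≤ 1) : C.φ i (P *ᵥ v) ≤ C.g i P := by
  apply le_csSup
  · apply IsCompact.bddAbove
    apply (isCompact_closedBall (0 : Fin m → ℝ) 1).image
    exact (C.cont i).comp (Continuous.matrix_mulVec continuous_const continuous_id)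
  · exact ⟨v, by simpa using hv, rfl⟩

lemma g_nonneg (i : I) (P : Mat m) : 0 ≤ C.g i P :=
  (C.nonneg i _).trans (C.le_g i P (v := 0) (by simp))

lemma g_pos_iff (i : I) (P : Mat m) : 0 < C.g i P ↔ C.col P i := by
  constructor
  · intro h
    obtain ⟨_, ⟨v, -, rfl⟩, hv⟩ := exists_lt_of_lt_csSup
      (Set.Nonempty.image _ (Metric.nonempty_closedBall.2 zero_le_one)) h
    exact ⟨v, hv⟩
  · rintro ⟨v, hv⟩
    have h0 : v ≠ 0 := by
      rintro rfl
      exact C.ne_zero hv (by simp)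
    have hn : 0 < ‖v‖ := norm_pos_iff.2 h0
    have := C.smul i _ (‖v‖⁻¹) (by positivity) hv
    rw [← mulVec_smul] at this
    refine this.trans_le (C.le_g i P ?_)
    rw [norm_smul, norm_inv, norm_norm, inv_mul_cancel₀ hn.ne']

lemma g_eq_zero {i : I} {P : Mat m} (h : ¬ C.col P i) : C.g i P = 0 :=
  le_antisymm (not_lt.1 fun h' => h ((C.g_pos_iff i P).1 h')) (C.g_nonneg i P)

lemma not_col_zero (i : I) : ¬ C.col 0 i := by
  rintro ⟨v, hv⟩
  exact C.ne_zero hv (by simp)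

lemma g_zero (i : I) : C.g i 0 = 0 := C.g_eq_zero (C.not_col_zero i)

lemma exists_col {P : Mat m} (h : P ≠ 0) : ∃ i, C.col P i := by
  have : ∃ v, P *ᵥ v ≠ 0 := by
    by_contra hv
    push Not at hv
    exact h (Matrix.ext_of_mulVec_single fun i => by rw [hv, zero_mulVec])
  obtain ⟨v, hv⟩ := this
  obtain ⟨i, hi⟩ := C.cover _ hv
  exact ⟨i, v, hi⟩

lemma not_col_both {M A B : Mat m} (h : Dec M A B) {i : I} (hA : C.col A i) (hB : C.col B i) :
    False := by
  obtain ⟨u, hu⟩ := hA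
  obtain ⟨v, hv⟩ := hB
  apply C.orth i _ _ hu hv
  rw [dotProduct_mulVec, vecMul_mulVec, h.pA.symm, h.mul]
  simp

lemma g_mul_g {M A B : Mat m} (h : Dec M A B) (i : I) : C.g i A = 0 ∨ C.g i B = 0 := by
  by_cases hA : C.col A i
  · exact Or.inr (C.g_eq_zero fun hB => C.not_col_both h hA hB)
  · exact Or.inl (C.g_eq_zero hA)

lemma ne_of_dec {M A B : Mat m} (h : Dec M A B) (hM : M ≠ 0) :
    ∃ i, C.g i A - C.g i B ≠ 0 := by
  by_cases hA : A = 0
  · have hB : B ≠ 0 := by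
      rintro rfl
      exact hM (by rw [h.sub, hA, sub_zero])
    obtain ⟨i, hi⟩ := C.exists_col hB
    refine ⟨i, ?_⟩
    rw [hA, C.g_zero]
    have := (C.g_pos_iff i B).2 hi
    linarith
  · obtain ⟨i, hi⟩ := C.exists_col hA
    refine ⟨i, ?_⟩
    rw [C.g_eq_zero (P := B) fun hB => C.not_col_both h hi hB]
    have := (C.g_pos_iff i A).2 hi
    linarith

include C in
theorem card_ge [Fintype I] : (m + 1).choose 2 ≤ Fintype.card I := by
  by_contra hlt
  rw [not_le, ← card_sym2] at hlt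
  have hp := continuous_posM (m := m)
  obtain ⟨c, hc, h0⟩ := borsuk_ulam hlt (fun c i => C.g i (posM c) - C.g i (posM (-c))) (by
    apply Continuous.continuousOn
    apply continuous_pi
    intro i
    have := C.continuous_g i
    fun_prop) (by
    intro c _
    funext i
    simp)
  obtain ⟨i, hi⟩ := C.ne_of_dec (dec_posM c) (symM_ne (ne_zero_of_mem_l1Sphere hc))
  exact hi (congrFun h0 i)

theorem tight [Fintype I] [Nonempty I] (h : Fintype.card I ≤ (m + 1).choose 2) (S : Set I) :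
    ∃ V W : Submodule ℝ (Fin m → ℝ), m ≤ finrank ℝ V + finrank ℝ W ∧
      (∀ i, (∃ x ∈ V, 0 < C.φ i x) ↔ i ∈ S) ∧ (∀ i, (∃ x ∈ W, 0 < C.φ i x) ↔ i ∉ S) := by
  classical
  rw [← card_sym2] at h
  have hp := continuous_posM (m := m)
  obtain ⟨c, hc, τ, hτ, h0⟩ := exists_ray h (fun c i => C.g i (posM c) - C.g i (posM (-c))) (by
    apply continuous_pi
    intro i
    have := C.continuous_g i
    fun_prop) (by
    intro c
    funext i
    simp) (fun i => if i ∈ S then 1 else -1) (Classical.arbitrary I) (by split_ifs <;> norm_num)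
  have hd := dec_posM c
  set A := posM c
  set B := posM (-c)
  obtain ⟨i₀, hi₀⟩ := C.ne_of_dec hd (symM_ne (ne_zero_of_mem_l1Sphere hc))
  have hτ' : 0 < τ := by
    refine lt_of_le_of_ne hτ ?_
    rintro rfl
    exact hi₀ (by simpa using h0 i₀)
  have hA : ∀ i ∈ S, C.col A i := by
    intro i hi
    have := h0 i
    simp only [if_pos hi] at this
    rw [← C.g_pos_iff]
    linarith [C.g_nonneg i B]
  have hB : ∀ i ∉ S, C.col B i := by
    intro i hi
    have := h0 i
    simp only [if_neg hi] at this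
    rw [← C.g_pos_iff]
    linarith [C.g_nonneg i A]
  have hinj : Function.Injective (Matrix.toLin' (symM c)) := by
    rw [← LinearMap.ker_eq_bot, LinearMap.ker_eq_bot']
    intro k hk
    by_contra hk0
    rw [toLin'_apply, hd.sub, sub_mulVec, sub_eq_zero] at hk
    have h1 : A *ᵥ k = 0 := by
      rw [← dotProduct_self_eq_zero]
      nth_rewrite 2 [hk]
      rw [dotProduct_mulVec, vecMul_mulVec, hd.pA.symm, hd.mul]
      simp
    obtain ⟨i, hi⟩ := C.cover k hk0
    by_cases hS : i ∈ S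
    · obtain ⟨v, hv⟩ := hA i hS
      apply C.orth i _ _ hi hv
      rw [dotProduct_mulVec, ← hd.pA.symm, vecMul_transpose, h1, zero_dotProduct]
    · obtain ⟨v, hv⟩ := hB i hS
      apply C.orth i _ _ hi hv
      rw [dotProduct_mulVec, ← hd.pB.symm, vecMul_transpose, ← hk, h1, zero_dotProduct]
  have hsurj := LinearMap.injective_iff_surjective.1 hinj
  refine ⟨LinearMap.range (Matrix.toLin' A), LinearMap.range (Matrix.toLin' B), ?_, ?_, ?_⟩
  · have htop : LinearMap.range (Matrix.toLin' A) ⊔ LinearMap.range (Matrix.toLin' B) = ⊤ := by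
      rw [eq_top_iff]
      intro x _
      obtain ⟨y, rfl⟩ := hsurj x
      rw [hd.sub, map_sub]
      exact Submodule.sub_mem _ (Submodule.mem_sup_left ⟨y, rfl⟩) (Submodule.mem_sup_right ⟨y, rfl⟩)
    have := Submodule.finrank_sup_add_finrank_inf_eq (LinearMap.range (Matrix.toLin' A))
      (LinearMap.range (Matrix.toLin' B))
    rw [htop, finrank_top, Module.finrank_fin_fun] at this
    omega
  · intro i
    constructor
    · rintro ⟨_, ⟨v, rfl⟩, hv⟩
      by_contra hS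
      exact C.not_col_both hd ⟨v, hv⟩ (hB i hS)
    · intro hi
      obtain ⟨v, hv⟩ := hA i hi
      exact ⟨_, ⟨v, rfl⟩, hv⟩
  · intro i
    constructor
    · rintro ⟨_, ⟨v, rfl⟩, hv⟩ hS
      exact C.not_col_both hd (hA i hS) ⟨v, hv⟩
    · intro hi
      obtain ⟨v, hv⟩ := hB i hi
      exact ⟨_, ⟨v, rfl⟩, hv⟩

/-- restriction to the span of an orthonormal family -/
noncomputable def pull {r : ℕ} (b : Fin r → Fin m → ℝ) (hb : Orth b) (S : Finset I)
    (hS : ∀ c i, 0 < C.φ i (lin b c) → i ∈ S) : Col r S where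
  φ i c := C.φ i (lin b c)
  cont i := (C.cont i).comp (lin b).continuous_of_finiteDimensional
  nonneg i c := C.nonneg _ _
  even i c := by rw [map_neg, C.even]
  smul i x c hc h := by rw [map_smul]; exact C.smul _ _ _ hc h
  cover x hx := by
    obtain ⟨i, hi⟩ := C.cover _ (lin_ne hb hx)
    exact ⟨⟨i, hS _ _ hi⟩, hi⟩
  orth i x y hx hy := by rw [← lin_dot hb]; exact C.orth _ _ _ hx hy

/-- there is a subspace of dimension at least `r` with all colours in `S` -/
def Has (r : ℕ) (S : Finset I) : Prop :=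
  ∃ W : Submodule ℝ (Fin m → ℝ), r ≤ finrank ℝ W ∧ ∀ x ∈ W, ∀ i, 0 < C.φ i x → i ∈ S

variable {C}

lemma Has.frame {r : ℕ} {S : Finset I} (h : C.Has r S) :
    ∃ b : Fin r → Fin m → ℝ, Orth b ∧ ∀ c i, 0 < C.φ i (lin b c) → i ∈ S := by
  obtain ⟨W, hW, hS⟩ := h
  obtain ⟨b, hb, hbW⟩ := exists_frame W hW
  refine ⟨b, hb, fun c i => hS _ ?_ i⟩
  rw [lin_apply]
  exact W.sum_mem fun k _ => W.smul_mem _ (hbW k)

lemma Has.card_ge {r : ℕ} {S : Finset I} (h : C.Has r S) : (r + 1).choose 2 ≤ S.card := by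
  obtain ⟨b, hb, hS⟩ := h.frame
  simpa using (C.pull b hb S hS).card_ge

lemma Has.mono {r : ℕ} {S T : Finset I} (h : C.Has r S) (hST : S ⊆ T) : C.Has r T := by
  obtain ⟨W, hW, hS⟩ := h
  exact ⟨W, hW, fun x hx i hi => hST (hS x hx i hi)⟩

lemma Has.inter [DecidableEq I] {r s t : ℕ} {S T : Finset I} (h : C.Has r S) (h' : C.Has s T)
    (ht : t + m ≤ r + s) : C.Has t (S ∩ T) := by
  obtain ⟨V, hV, hS⟩ := h
  obtain ⟨W, hW, hT⟩ := h'
  refine ⟨V ⊓ W, ?_, fun x hx i hi => Finset.mem_inter.2 ⟨hS x hx.1 i hi, hT x hx.2 i hi⟩⟩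
  have h1 := Submodule.finrank_sup_add_finrank_inf_eq V W
  have h2 := Submodule.finrank_le (V ⊔ W)
  rw [Module.finrank_fin_fun] at h2
  omega

lemma exists_perp (x : Fin m → ℝ) : ∃ W : Submodule ℝ (Fin m → ℝ), m ≤ finrank ℝ W + 1 ∧
    ∀ y ∈ W, x ⬝ᵥ y = 0 := by
  refine ⟨LinearMap.ker (dotProductBilin ℝ ℝ x), ?_, fun y hy => hy⟩
  have h1 := LinearMap.finrank_range_add_finrank_ker (dotProductBilin ℝ ℝ x)
  have h2 := Submodule.finrank_le (LinearMap.range (dotProductBilin ℝ ℝ x))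
  rw [Module.finrank_fin_fun] at h1
  rw [finrank_self] at h2
  omega

/-- `S` is a face: no plane has all its colours in `S` -/
def Face (C : Col m I) (S : Finset I) : Prop := ¬ C.Has 2 S

lemma Face.mono {S T : Finset I} (h : C.Face T) (hST : S ⊆ T) : C.Face S :=
  fun h' => h (h'.mono hST)

lemma face_of_card {S : Finset I} (h : S.card ≤ 2) : C.Face S := fun h' => by
  have := h'.card_ge
  norm_num at this
  omega

section four

variable {C : Col 4 I}

lemma face_of_point {x : Fin 4 → ℝ} {S : Finset I} (h : ∀ i ∈ S, 0 < C.φ i x) : C.Face S := by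
  rintro ⟨V, hV, hS⟩
  obtain ⟨W, hW, hx⟩ := exists_perp x
  have h1 := Submodule.finrank_sup_add_finrank_inf_eq V W
  have h2 := Submodule.finrank_le (V ⊔ W)
  rw [Module.finrank_fin_fun] at h2
  obtain ⟨y, hy, hy0⟩ := Submodule.exists_mem_ne_zero_of_ne_bot (p := V ⊓ W) (by
    intro hb
    rw [hb, finrank_bot] at h1
    omega)
  obtain ⟨i, hi⟩ := C.cover y hy0
  exact C.orth i _ _ (h i (hS y hy.1 i hi)) hi (hx y hy.2)

variable [Fintype I] [DecidableEq I]

lemma Face.has_compl (hI : Fintype.card I = 10) {S : Finset I} (h : C.Face S) : C.Has 3 Sᶜ := by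
  have : Nonempty I := Fintype.card_pos_iff.1 (by omega)
  obtain ⟨V, W, hVW, hV, hW⟩ := C.tight (by rw [hI]; decide) (S : Set I)
  refine ⟨W, ?_, fun x hx i hi => Finset.mem_compl.2 ((hW i).1 ⟨x, hx, hi⟩)⟩
  by_contra hlt
  exact h ⟨V, by omega, fun x hx i hi => (hV i).1 ⟨x, hx, hi⟩⟩

lemma Face.card_le (hI : Fintype.card I = 10) {S : Finset I} (h : C.Face S) : S.card ≤ 4 := by
  have := (h.has_compl hI).card_ge
  rw [Finset.card_compl, hI, show Nat.choose (3 + 1) 2 = 6 by decide] at this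
  omega

lemma Face.not_face (hI : Fintype.card I = 10) {S T : Finset I} (h : C.Face S) (h' : C.Face T) :
    ¬ C.Face (S ∪ T)ᶜ := by
  intro h''
  apply h''
  rw [Finset.compl_union]
  exact (h.has_compl hI).inter (h'.has_compl hI) (by norm_num)

lemma Face.or (hI : Fintype.card I = 10) {Q T : Finset I} (h : C.Face Q) (hQ : Q.card = 4) :
    C.Face (T \ Q) ∨ C.Face (Q ∪ T)ᶜ := by
  obtain ⟨b, hb, hS⟩ := (h.has_compl hI).frame
  have hc : Fintype.card (Qᶜ : Finset I) = 6 := by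
    rw [Fintype.card_coe, Finset.card_compl, hI, hQ]
  have : Nonempty (Qᶜ : Finset I) := Fintype.card_pos_iff.1 (by omega)
  obtain ⟨V, W, -, hV, hW⟩ := (C.pull b hb _ hS).tight (by rw [hc]; decide)
    {i | i.1 ∈ T}
  have h1 := Submodule.finrank_sup_add_finrank_inf_eq V W
  have h2 := Submodule.finrank_le (V ⊔ W)
  rw [Module.finrank_fin_fun] at h2
  have hb0 : V ⊓ W = ⊥ := by
    rw [eq_bot_iff]
    intro y hy
    by_contra hy0
    obtain ⟨i, hi⟩ := (C.pull b hb _ hS).cover y hy0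
    exact (hW i).1 ⟨y, hy.2, hi⟩ ((hV i).1 ⟨y, hy.1, hi⟩)
  rw [hb0, finrank_bot] at h1
  have key : ∀ (U : Submodule ℝ (Fin 3 → ℝ)) (S : Finset I), finrank ℝ U ≤ 1 →
      (∀ i ∈ S, ∃ x ∈ U, 0 < C.φ i (lin b x)) → C.Face S := by
    intro U S hU hUS
    obtain ⟨u, hu⟩ := finrank_le_one_iff.1 hU
    apply face_of_point (x := lin b u)
    intro i hi
    obtain ⟨x, hx, hpos⟩ := hUS i hi
    obtain ⟨c, hc⟩ := hu ⟨x, hx⟩
    have hc' : c • (u : Fin 3 → ℝ) = x := congrArg Subtype.val hc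
    have hc0 : c ≠ 0 := by
      rintro rfl
      rw [zero_smul] at hc'
      exact C.ne_zero hpos (by rw [← hc', map_zero])
    have := C.smul i _ c⁻¹ (inv_ne_zero hc0) hpos
    rwa [← hc', map_smul, smul_smul, inv_mul_cancel₀ hc0, one_smul] at this
  by_cases hV1 : finrank ℝ V ≤ 1
  · left
    refine key V _ hV1 fun i hi => ?_
    rw [Finset.mem_sdiff] at hi
    exact (hV ⟨i, Finset.mem_compl.2 hi.2⟩).2 hi.1
  · right
    refine key W _ (by omega) fun i hi => ?_
    rw [Finset.mem_compl, Finset.mem_union, not_or] at hi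
    exact (hW ⟨i, Finset.mem_compl.2 hi.1⟩).2 hi.2

end four

end Col

end Vale.Agent.P052
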