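import Vale.Agent.P052.Lift

/-! Every tetrahedron of the nerve has a free triangle. -/

namespace Vale.Agent.P052

open Matrix Module

theorem no_small {I : Type} [Fintype I] (G : (Fin 4 → ℝ) → I → ℝ)
    (hG : ContinuousOn G (l1Sphere (Fin 4))) (hodd : ∀ x ∈ l1Sphere (Fin 4), G (-x) = - G x)
    (hs : ∀ x ∈ l1Sphere (Fin 4), G x ≠ 0 ∧ ∃ S : Finset I, S.card ≤ 3 ∧ ∀ i ∉ S, G x i = 0) :
    False := by
  classical
  let t : I → ℝ := fun i => ((Fintype.equivFin I i : ℕ) : ℝ)
  have ht : Function.Injective t := fun i j h =>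
    (Fintype.equivFin I).injective (Fin.ext (Nat.cast_injective (R := ℝ) h))
  obtain ⟨x, hx, h0⟩ := borsuk_ulam (ι := Fin 4) (κ := Fin 3) (by simp)
    (fun x k => ∑ i, G x i * t i ^ (k : ℕ))
    (continuousOn_pi.2 fun k => continuousOn_finsetSum _ fun i _ =>
      (continuousOn_pi.1 hG i).mul continuousOn_const)
    (fun x hx => by funext k; simp [hodd x hx])
  obtain ⟨hne, S, hS, hS0⟩ := hs x hx
  obtain ⟨i₀, hi₀⟩ := Function.ne_iff.1 hne
  have hm : i₀ ∈ S := by by_contra h; exact hi₀ (hS0 _ h)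
  let p : Polynomial ℝ := ∏ j ∈ S.erase i₀, (Polynomial.X - Polynomial.C (t j))
  have hp : p.natDegree < 3 := by
    rw [Polynomial.natDegree_prod_of_monic _ _ fun j _ => Polynomial.monic_X_sub_C _]
    simp only [Polynomial.natDegree_X_sub_C, Finset.sum_const, smul_eq_mul, mul_one,
      Finset.card_erase_of_mem hm]
    omega
  have h1 : ∑ i, G x i * p.eval (t i) = 0 := by
    simp only [Polynomial.eval_eq_sum_range' hp, Finset.mul_sum]
    rw [Finset.sum_comm, Finset.sum_range]
    apply Finset.sum_eq_zero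
    intro k _
    have := congrFun h0 k
    simp only [Pi.zero_apply] at this
    simp only [mul_left_comm (G x _), ← Finset.mul_sum, this, mul_zero]
  rw [Finset.sum_eq_single i₀] at h1
  · refine mul_ne_zero hi₀ ?_ h1
    rw [Polynomial.eval_prod, Finset.prod_ne_zero_iff]
    intro j hj
    simp only [Polynomial.eval_sub, Polynomial.eval_X, Polynomial.eval_C]
    exact sub_ne_zero.2 fun h => Finset.ne_of_mem_erase hj (ht h).symm
  · intro j _ hj
    by_cases hjS : j ∈ S
    · rw [Polynomial.eval_prod, Finset.prod_eq_zero (Finset.mem_erase.2 ⟨hj, hjS⟩) (by simp),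
        mul_zero]
    · rw [hS0 j hjS, zero_mul]
  · simp

namespace Col

variable {I : Type} [Fintype I] [DecidableEq I] {C : Col 4 I}

theorem exists_four (hI : Fintype.card I = 10) : ∃ Q, C.Face Q ∧ Q.card = 4 := by
  classical
  by_contra hno
  push Not at hno
  have : ∀ i, ∃ n, ∀ x, 0 < C.φ i x → 0 < C.φ i n := by
    intro i
    by_cases h : ∃ x, 0 < C.φ i x
    · exact ⟨h.choose, fun _ _ => h.choose_spec⟩
    · exact ⟨0, fun x hx => absurd ⟨x, hx⟩ h⟩
  choose n hn using this
  have hφ := C.cont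
  refine no_small (fun x i => C.φ i x * (x ⬝ᵥ n i)) (Continuous.continuousOn ?_) ?_ ?_
  · exact continuous_pi fun i => (hφ i).mul (continuous_id.dotProduct continuous_const)
  · intro x _
    funext i
    simp [C.even]
  · intro x hx
    obtain ⟨i, hi⟩ := C.cover x (ne_zero_of_mem_l1Sphere hx)
    refine ⟨fun h => mul_ne_zero hi.ne' (C.orth i _ _ hi (hn i x hi)) (congrFun h i),
      Finset.univ.filter fun i => 0 < C.φ i x, ?_, fun j hj => ?_⟩
    · have hF : C.Face (Finset.univ.filter fun i => 0 < C.φ i x) :=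
        face_of_point (x := x) (by simp)
      have := hF.card_le hI
      have := hno _ hF
      omega
    · have : C.φ j x = 0 := le_antisymm (by simpa using hj) (C.nonneg _ _)
      simp [this]

theorem exists_nonface (hI : Fintype.card I = 10) : ∃ i j k, ¬ C.Face {i, j, k} := by
  by_contra hno
  push Not at hno
  have h3 : ∀ T : Finset I, T.card = 3 → C.Face T := by
    intro T hT
    obtain ⟨i, j, k, -, -, -, rfl⟩ := Finset.card_eq_three.1 hT
    exact hno i j k
  obtain ⟨Q, hQ, h4⟩ := exists_four (C := C) hI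
  obtain ⟨T, hT, hT3⟩ := Finset.exists_subset_card_eq (s := Qᶜ) (n := 3)
    (by rw [Finset.card_compl, hI, h4]; norm_num)
  refine hQ.not_face hI (h3 T hT3) (h3 _ ?_)
  rw [Finset.card_compl, hI, Finset.card_union_of_disjoint, h4, hT3]
  exact Finset.disjoint_left.2 fun x hx hxT => Finset.mem_compl.1 (hT hxT) hx

theorem face_of_base (hI : Fintype.card I = 10) (a : I) {S : Finset I}
    (h : ∀ i ∈ S, ∀ j ∈ S, C.Face {i, a, j}) : C.Face S := by
  intro hS
  obtain ⟨w, hw⟩ := exists_sgn (C := C) hI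
  obtain ⟨i, j, k, hn⟩ := exists_nonface (C := C) hI
  obtain ⟨G, hG, hodd, hrep⟩ := exists_odd hw hn
  obtain ⟨b, hb, hbS⟩ := hS.frame
  have hlc : Continuous (lin b) := (lin b).continuous_of_finiteDimensional
  obtain ⟨c, hc, h0⟩ := borsuk_ulam (ι := Fin 2) (κ := Fin 1) (by simp)
    (fun c _ => ∑ l ∈ S, w a l * G (lin b c) l)
    (continuousOn_pi.2 fun _ => continuousOn_finsetSum _ fun l _ => continuousOn_const.mul
      (continuousOn_pi.1 (hG.comp hlc.continuousOn
        fun c hc => lin_ne hb (ne_zero_of_mem_l1Sphere hc)) l))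
    (fun c hc => by
      funext _
      simp [hodd _ (lin_ne hb (ne_zero_of_mem_l1Sphere hc))])
  have hne := lin_ne hb (ne_zero_of_mem_l1Sphere hc)
  have hr := hrep _ hne
  obtain ⟨l, hl⟩ := C.cover _ hne
  have hlS := hbS c l hl
  have h1 : ∑ m ∈ S, w a m * G (lin b c) m = 0 := congrFun h0 0
  have h2 : ∑ m ∈ S, w l m * G (lin b c) l * G (lin b c) m = 0 := by
    rw [← mul_zero (w l a * G (lin b c) l), ← h1, Finset.mul_sum]
    apply Finset.sum_congr rfl
    intro m hm
    rw [← hw.face _ _ _ (h l hlS m hm)]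
    ring
  have h3 := (Finset.sum_eq_zero_iff_of_nonneg fun m _ => hr.nonneg hw l m).1 h2 l hlS
  rw [hw.self, one_mul, mul_self_eq_zero] at h3
  exact (hr.ne_iff hw l).2 hl h3

theorem face_four (hI : Fintype.card I = 10) {a b c d : I} (h1 : C.Face {a, b, c})
    (h2 : C.Face {a, b, d}) (h3 : C.Face {a, c, d}) : C.Face {a, b, c, d} := by
  have k1 : ∀ {i j : I}, C.Face {a, i, j} → C.Face {i, a, j} := fun h => by rwa [c12]
  have k2 : ∀ {i j : I}, C.Face {a, i, j} → C.Face {j, a, i} := fun h => by rwa [c12, c23]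
  apply face_of_base hI a
  simp only [Finset.mem_insert, Finset.mem_singleton, forall_eq_or_imp, forall_eq]
  exact ⟨⟨face_aab _ _, face_aab _ _, face_aab _ _, face_aab _ _⟩,
    ⟨face_abb _ _, face_aba _ _, k1 h1, k1 h2⟩, ⟨face_abb _ _, k2 h1, face_aba _ _, k1 h3⟩,
    ⟨face_abb _ _, k2 h2, k2 h3, face_aba _ _⟩⟩

lemma compl_iff {C : Col 4 (Fin 10)} {Q : Finset (Fin 10)} (hQ : C.Face Q) (T T' : Finset (Fin 10))
    (h : Q.card = 4 ∧ T \ Q = T ∧ (Q ∪ T)ᶜ = T') : C.Face T ↔ ¬ C.Face T' := by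
  have h1 := hQ.or (T := T) (by simp) h.1
  have h2 := fun hT : C.Face T => hQ.not_face (by simp) hT
  rw [h.2.1, h.2.2] at h1
  rw [h.2.2] at h2
  tauto

theorem comb_ten (C : Col 4 (Fin 10)) (h : C.Face {0, 1, 2, 3}) (h0 : C.Face {4, 1, 2, 3})
    (h1 : C.Face {0, 5, 2, 3}) (h2 : C.Face {0, 1, 6, 3}) (h3 : C.Face {0, 1, 2, 7}) : False := by
  have hI : Fintype.card (Fin 10) = 10 := by simp
  have no4 : ∀ S : Finset (Fin 10), ({0, 1, 2, 3} ∪ S)ᶜ.card ≤ 2 → ¬ C.Face S :=
    fun S hS hF => h.not_face hI hF (face_of_card hS)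
  have a456 := compl_iff h {4, 5, 6} {7, 8, 9} (by decide)
  have a457 := compl_iff h {4, 5, 7} {6, 8, 9} (by decide)
  have a467 := compl_iff h {4, 6, 7} {5, 8, 9} (by decide)
  have a567 := compl_iff h {5, 6, 7} {4, 8, 9} (by decide)
  have a458 := compl_iff h {4, 5, 8} {6, 7, 9} (by decide)
  have b056 := compl_iff h0 {0, 5, 6} {7, 8, 9} (by decide)
  have b146 := compl_iff h1 {1, 4, 6} {7, 8, 9} (by decide)
  have b245 := compl_iff h2 {2, 4, 5} {7, 8, 9} (by decide)
  have b356 := compl_iff h3 {3, 5, 6} {4, 8, 9} (by decide)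
  have b346 := compl_iff h3 {3, 4, 6} {5, 8, 9} (by decide)
  have b345 := compl_iff h3 {3, 4, 5} {6, 8, 9} (by decide)
  have p1 := parity (C := C) hI 0 3 5 6
  have p2 := parity (C := C) hI 1 3 4 6
  have p3 := parity (C := C) hI 2 3 4 5
  have p4 := parity (C := C) hI 4 5 8 9
  have p5 := parity (C := C) hI 6 7 8 9
  rw [iff_true_intro (h1.mono (S := {0, 3, 5}) (by decide)),
    iff_true_intro (h2.mono (S := {0, 3, 6}) (by decide)), b056, b356] at p1
  rw [iff_true_intro (h0.mono (S := {1, 3, 4}) (by decide)),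
    iff_true_intro (h2.mono (S := {1, 3, 6}) (by decide)), b146, b346] at p2
  rw [iff_true_intro (h0.mono (S := {2, 3, 4}) (by decide)),
    iff_true_intro (h1.mono (S := {2, 3, 5}) (by decide)), b245, b345] at p3
  simp only [iff_self, true_iff, not_iff_not] at p1 p2 p3
  by_cases hc : C.Face {7, 8, 9}
  · have c4 := p1.1 hc
    have c5 := p2.1 hc
    have c6 := p3.1 hc
    simp only [c4, c5, c6, hc, iff_self, iff_true] at p4 p5
    by_cases hd : C.Face {4, 5, 8}
    · exact no4 _ (by decide) (face_four hI hd (p4.1 hd) c4)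
    · have hd' : C.Face {6, 7, 9} := not_not.1 fun h' => hd (a458.2 h')
      exact no4 _ (by decide) (face_four hI (p5.2 hd') hd' c6)
  · exact no4 _ (by decide) (face_four hI (a456.2 hc) (a457.2 fun h' => hc (p3.2 h'))
      (a467.2 fun h' => hc (p2.2 h')))

/-- relabelling the colours -/
def reindex {m : ℕ} {I J : Type} (C : Col m I) (σ : J ≃ I) : Col m J where
  φ j := C.φ (σ j)
  cont _ := C.cont _
  nonneg _ := C.nonneg _
  even _ := C.even _
  smul _ := C.smul _
  cover x hx := by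
    obtain ⟨i, hi⟩ := C.cover x hx
    exact ⟨σ.symm i, by simpa using hi⟩
  orth _ := C.orth _

lemma face_reindex {m : ℕ} {I J : Type} {C : Col m I} (σ : J ≃ I) {S : Finset J} {T : Finset I}
    (hT : C.Face T) (h : ∀ j ∈ S, σ j ∈ T) : (C.reindex σ).Face S := by
  rintro ⟨W, hW, hS⟩
  refine hT ⟨W, hW, fun x hx i hi => ?_⟩
  have := h _ (hS x hx (σ.symm i) (by simpa [reindex] using hi))
  simpa using this

theorem free (hI : Fintype.card I = 10) {Q : Finset I} (hQ : C.Face Q) (h4 : Q.card = 4) :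
    ∃ d ∈ Q, ∀ x ∉ Q, ¬ C.Face (insert x (Q.erase d)) := by
  by_contra hno
  push Not at hno
  choose! X hX hF using hno
  have hinj : ∀ d ∈ Q, ∀ d' ∈ Q, X d = X d' → d = d' := by
    intro d hd d' hd' hx
    by_contra hne
    obtain ⟨c, hc⟩ : ((Q.erase d).erase d').Nonempty := by
      rw [← Finset.card_pos, Finset.card_erase_of_mem (Finset.mem_erase.2 ⟨Ne.symm hne, hd'⟩),
        Finset.card_erase_of_mem hd, h4]
      norm_num
    simp only [Finset.mem_erase] at hc
    have key : ∀ j ∈ Q, C.Face {X d, c, j} := by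
      intro j hj
      by_cases hjd : j = d
      · refine (hF d' hd').mono ?_
        intro z
        simp only [Finset.mem_insert, Finset.mem_singleton, Finset.mem_erase]
        rintro (rfl | rfl | rfl)
        · exact Or.inl hx
        · exact Or.inr ⟨hc.1, hc.2.2⟩
        · exact Or.inr ⟨hjd ▸ hne, hj⟩
      · refine (hF d hd).mono ?_
        intro z
        simp only [Finset.mem_insert, Finset.mem_singleton, Finset.mem_erase]
        rintro (rfl | rfl | rfl)
        · exact Or.inl rfl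
        · exact Or.inr hc.2
        · exact Or.inr ⟨hjd, hj⟩
    have h5 : C.Face (insert (X d) Q) := by
      apply face_of_base hI c
      intro i hi j hj
      rcases Finset.mem_insert.1 hi with rfl | hi <;> rcases Finset.mem_insert.1 hj with rfl | hj
      · exact face_aba _ _
      · exact key j hj
      · rw [c12, c23, c12]; exact key i hi
      · refine hQ.mono ?_
        intro z
        simp only [Finset.mem_insert, Finset.mem_singleton]
        rintro (rfl | rfl | rfl)
        exacts [hi, hc.2.2, hj]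
    have := h5.card_le hI
    rw [Finset.card_insert_of_notMem (hX d hd), h4] at this
    omega
  let e : Fin 4 → I := fun k => (Finset.equivFinOfCardEq h4).symm k
  have heQ : ∀ k, e k ∈ Q := fun k => ((Finset.equivFinOfCardEq h4).symm k).2
  have hei : Function.Injective e :=
    Subtype.val_injective.comp (Finset.equivFinOfCardEq h4).symm.injective
  let τ : Fin 10 ≃ I := (Fintype.equivFinOfCardEq hI).symm
  have hg : Function.Injective (Sum.elim e fun k => X (e k)) :=
    hei.sumElim (fun k l h => hei (hinj _ (heQ k) _ (heQ l) h))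
      fun k l h => hX _ (heQ l) (h ▸ heQ k)
  obtain ⟨σ, hσ⟩ := Equiv.Perm.exists_extending_pair
    (Sum.elim ![0, 1, 2, 3] ![4, 5, 6, 7] : Fin 4 ⊕ Fin 4 → Fin 10) _ (by decide)
    (τ.symm.injective.comp hg)
  have hv : ∀ s, (σ.trans τ) (Sum.elim ![0, 1, 2, 3] ![4, 5, 6, 7] s)
      = Sum.elim e (fun k => X (e k)) s := by
    intro s
    rw [Equiv.trans_apply, hσ]; simp
  have v0 : (σ.trans τ) 0 = e 0 := hv (.inl 0)
  have v1 : (σ.trans τ) 1 = e 1 := hv (.inl 1)
  have v2 : (σ.trans τ) 2 = e 2 := hv (.inl 2)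
  have v3 : (σ.trans τ) 3 = e 3 := hv (.inl 3)
  have v4 : (σ.trans τ) 4 = X (e 0) := hv (.inr 0)
  have v5 : (σ.trans τ) 5 = X (e 1) := hv (.inr 1)
  have v6 : (σ.trans τ) 6 = X (e 2) := hv (.inr 2)
  have v7 : (σ.trans τ) 7 = X (e 3) := hv (.inr 3)
  generalize σ.trans τ = ρ at *
  refine comb_ten (C.reindex ρ) (face_reindex ρ hQ ?_) (face_reindex ρ (hF _ (heQ 0)) ?_)
    (face_reindex ρ (hF _ (heQ 1)) ?_) (face_reindex ρ (hF _ (heQ 2)) ?_)
    (face_reindex ρ (hF _ (heQ 3)) ?_)
  all_goals simp [v0, v1, v2, v3, v4, v5, v6, v7, heQ, hei.eq_iff]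

end Col

end Vale.Agent.P052
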