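import Vale.Agent.P052.Comb

/-! Collapsing the free triangles: the lines of four-space have no colouring with ten colours. -/

namespace Vale.Agent.P052

open Matrix Module

/-- signed minimum -/
noncomputable def smin (p q r : ℝ) : ℝ :=
  max 0 (min p (min q r)) - max 0 (min (-p) (min (-q) (-r)))

lemma smin_neg (p q r : ℝ) : smin (-p) (-q) (-r) = - smin p q r := by simp [smin]

lemma smin_zero {p q r : ℝ} (h : p = 0 ∨ q = 0 ∨ r = 0) : smin p q r = 0 := by
  unfold smin
  rw [max_eq_left, max_eq_left, sub_zero]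
  all_goals
    simp only [min_le_iff]
    rcases h with h | h | h <;> simp [h]

lemma smin_pos {p q r : ℝ} (hp : 0 < p) (hq : 0 < q) (hr : 0 < r) :
    (smin p q r = p ∨ smin p q r = q ∨ smin p q r = r) ∧ 0 < smin p q r := by
  have h1 : 0 < min p (min q r) := lt_min hp (lt_min hq hr)
  have : smin p q r = min p (min q r) := by
    unfold smin
    rw [max_eq_right h1.le, max_eq_left ((min_le_left _ _).trans (by linarith)), sub_zero]
  rw [this]
  refine ⟨?_, h1⟩
  rcases min_choice p (min q r) with h | h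
  · exact Or.inl h
  · rw [h]; exact Or.inr (min_choice q r)

lemma smin_spec {p q r : ℝ} (hq : 0 < p * q) (hr : 0 < p * r) :
    (smin p q r = p ∨ smin p q r = q ∨ smin p q r = r) ∧ 0 < smin p q r * p := by
  rcases lt_trichotomy 0 p with h | h | h
  · have := smin_pos h ((mul_pos_iff_of_pos_left h).1 hq) ((mul_pos_iff_of_pos_left h).1 hr)
    exact ⟨this.1, mul_pos this.2 h⟩
  · simp [← h] at hq
  · have := smin_pos (p := -p) (q := -q) (r := -r) (by linarith) (by nlinarith) (by nlinarith)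
    rw [smin_neg] at this
    exact ⟨by simpa using this.1, by nlinarith [this.2]⟩

namespace Col

theorem no_ten {I : Type} [Fintype I] (hI : Fintype.card I = 10) (C : Col 4 I) : False := by
  classical
  obtain ⟨w, hw⟩ := exists_sgn (C := C) hI
  obtain ⟨i, j, k, hn⟩ := exists_nonface (C := C) hI
  obtain ⟨G, hG, hodd, hrep⟩ := exists_odd hw hn
  have hch : ∀ Q : Finset I, ∃ a b c d : I, C.Face Q → Q.card = 4 → d ∈ Q ∧ Q.erase d = {a, b, c} ∧
      ∀ x ∉ Q, ¬ C.Face (insert x (Q.erase d)) := by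
    intro Q
    by_cases h : C.Face Q ∧ Q.card = 4
    · obtain ⟨d, hd, hf⟩ := free hI h.1 h.2
      obtain ⟨a, b, c, -, -, -, h3⟩ := Finset.card_eq_three.1
        (show (Q.erase d).card = 3 by rw [Finset.card_erase_of_mem hd, h.2])
      exact ⟨a, b, c, d, fun _ _ => ⟨hd, h3, hf⟩⟩
    · exact ⟨i, i, i, i, fun h1 h2 => absurd ⟨h1, h2⟩ h⟩
  choose a b c d hch using hch
  obtain ⟨μ, hμ⟩ : ∃ μ : Finset I → (I → ℝ) → ℝ, μ = fun Q y =>
    smin (w (a Q) (a Q) * y (a Q)) (w (a Q) (b Q) * y (b Q)) (w (a Q) (c Q) * y (c Q)) := ⟨_, rfl⟩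
  obtain ⟨cf, hcf⟩ : ∃ cf : Finset I → I → ℝ, cf = fun Q l =>
    if l = d Q then w (a Q) l else if l ∈ Q then - w (a Q) l else 0 := ⟨_, rfl⟩
  have hμc : ∀ Q, Continuous (μ Q) := by
    intro Q
    rw [hμ]
    unfold smin
    fun_prop
  have hμn : ∀ Q y, μ Q (-y) = - μ Q y := by
    intro Q y
    simp only [hμ, Pi.neg_apply, mul_neg, smin_neg]
  have hG' : ContinuousOn G (l1Sphere (Fin 4)) := hG.mono fun x hx => ne_zero_of_mem_l1Sphere hx
  refine no_small (fun x l => G x l +
    ∑ Q ∈ Finset.univ.filter (fun Q => C.Face Q ∧ Q.card = 4), μ Q (G x) * cf Q l) ?_ ?_ ?_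
  · exact continuousOn_pi.2 fun l => (continuousOn_pi.1 hG' l).add
      (continuousOn_finsetSum _ fun Q _ => ((hμc Q).comp_continuousOn hG').mul continuousOn_const)
  · intro x hx
    funext l
    simp only [hodd x (ne_zero_of_mem_l1Sphere hx), hμn, Pi.neg_apply, neg_mul,
      Finset.sum_neg_distrib, neg_add]
  intro x hx
  have hr := hrep x (ne_zero_of_mem_l1Sphere hx)
  generalize G x = y at hr
  obtain ⟨S, hS⟩ : ∃ S : Finset I, ∀ l, l ∈ S ↔ y l ≠ 0 :=
    ⟨Finset.univ.filter fun l => y l ≠ 0, by simp⟩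
  have hSF : C.Face S := face_of_point (x := x) fun l hl => (hr.ne_iff hw l).1 ((hS l).1 hl)
  have hsub : ∀ Q, C.Face Q → Q.card = 4 → ∀ R, C.Face R → Q.erase (d Q) ⊆ R → R ⊆ Q := by
    intro Q h1 h2 R hR hQR s hs
    by_contra hsQ
    exact (hch Q h1 h2).2.2 s hsQ (hR.mono (Finset.insert_subset hs hQR))
  have hzero : ∀ Q, C.Face Q → Q.card = 4 → ¬ Q.erase (d Q) ⊆ S → μ Q y = 0 := by
    intro Q h1 h2 h3
    rw [hμ]
    apply smin_zero
    by_contra hne
    push Not at hne
    apply h3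
    rw [(hch Q h1 h2).2.1]
    intro l hl
    simp only [Finset.mem_insert, Finset.mem_singleton] at hl
    rw [hS]
    rcases hl with rfl | rfl | rfl
    exacts [right_ne_zero_of_mul hne.1, right_ne_zero_of_mul hne.2.1, right_ne_zero_of_mul hne.2.2]
  by_cases hact : ∃ Q, C.Face Q ∧ Q.card = 4 ∧ Q.erase (d Q) ⊆ S
  · obtain ⟨Q, h1, h2, h3⟩ := hact
    have hSQ := hsub Q h1 h2 S hSF h3
    have hsum : ∀ l, ∑ Q ∈ Finset.univ.filter (fun Q => C.Face Q ∧ Q.card = 4), μ Q y * cf Q l
        = μ Q y * cf Q l := by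
      intro l
      refine Finset.sum_eq_single Q (fun Q' hQ' hne => ?_) (fun h => absurd (by simp [h1, h2]) h)
      have hQ'' := (Finset.mem_filter.1 hQ').2
      rw [hzero Q' hQ''.1 hQ''.2, zero_mul]
      intro h4
      exact hne (Finset.eq_of_subset_of_card_le (hsub Q' hQ''.1 hQ''.2 Q h1 (h4.trans hSQ))
        (by rw [h2, hQ''.2])).symm
    simp only [hsum]
    obtain ⟨hd, he, -⟩ := hch Q h1 h2
    have hmem : ∀ l ∈ ({a Q, b Q, c Q} : Finset I), l ≠ d Q ∧ l ∈ Q ∧ y l ≠ 0 := by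
      intro l hl
      rw [← he] at hl
      exact ⟨Finset.ne_of_mem_erase hl, Finset.mem_of_mem_erase hl, (hS l).1 (h3 hl)⟩
    have ha := hmem (a Q) (by simp)
    have hpos : ∀ l ∈ ({a Q, b Q, c Q} : Finset I),
        0 < (w (a Q) (a Q) * y (a Q)) * (w (a Q) l * y l) := by
      intro l hl
      have h5 := hr.nonneg hw (a Q) l
      have h6 : w (a Q) l ≠ 0 := left_ne_zero_of_mul_eq_one (hw.sq _ _)
      rw [hw.self, one_mul]
      exact lt_of_le_of_ne (by linarith)
        (mul_ne_zero ha.2.2 (mul_ne_zero h6 (hmem l hl).2.2)).symm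
    obtain ⟨hs1, hs2⟩ := smin_spec (hpos (b Q) (by simp)) (hpos (c Q) (by simp))
    have hμe : μ Q y = smin (w (a Q) (a Q) * y (a Q)) (w (a Q) (b Q) * y (b Q))
      (w (a Q) (c Q) * y (c Q)) := by rw [hμ]
    rw [← hμe] at hs1 hs2
    constructor
    · intro h0
      have h5 := congrFun h0 (d Q)
      simp only [hcf, if_true, Pi.zero_apply] at h5
      have h6 := hr.nonneg hw (a Q) (d Q)
      rw [hw.self, one_mul] at hs2
      have h7 : w (a Q) (d Q) * y (a Q) * y (d Q) + μ Q y * y (a Q) = 0 := by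
        linear_combination w (a Q) (d Q) * y (a Q) * h5 - μ Q y * y (a Q) * hw.sq (a Q) (d Q)
      linarith
    · obtain ⟨l, hl, hle⟩ : ∃ l ∈ ({a Q, b Q, c Q} : Finset I), μ Q y = w (a Q) l * y l := by
        rcases hs1 with h | h | h <;> exact ⟨_, by simp, h⟩
      refine ⟨Q.erase l, by rw [Finset.card_erase_of_mem (hmem l hl).2.1, h2], fun m hm => ?_⟩
      by_cases hmQ : m ∈ Q
      · obtain rfl : m = l := by
          by_contra hml
          exact hm (Finset.mem_erase.2 ⟨hml, hmQ⟩)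
        simp only [hcf, if_neg (hmem m hl).1, if_pos hmQ, hle]
        linear_combination - y m * hw.sq (a Q) m
      · have h5 : y m = 0 := by
          by_contra h5
          exact hmQ (hSQ ((hS m).2 h5))
        have h6 : m ≠ d Q := fun h => hmQ (h ▸ hd)
        simp [hcf, h5, h6, hmQ]
  · push Not at hact
    have hsum : ∀ l, ∑ Q ∈ Finset.univ.filter (fun Q => C.Face Q ∧ Q.card = 4), μ Q y * cf Q l
        = 0 := by
      intro l
      refine Finset.sum_eq_zero fun Q hQ => ?_
      have hQ' := (Finset.mem_filter.1 hQ).2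
      rw [hzero Q hQ'.1 hQ'.2 (hact Q hQ'.1 hQ'.2), zero_mul]
    simp only [hsum, add_zero]
    refine ⟨hr.ne_zero hw, S, ?_, fun m hm => not_not.1 fun h => hm ((hS m).2 h)⟩
    have h4 := hSF.card_le hI
    by_contra h5
    exact hact S hSF (by omega) (Finset.erase_subset _ _)

theorem eleven_le {I : Type} [Fintype I] (C : Col 4 I) : 11 ≤ Fintype.card I := by
  have h1 := C.card_ge
  rw [show Nat.choose (4 + 1) 2 = 10 by decide] at h1
  by_contra h
  exact no_ten (by omega) C

end Col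

end Vale.Agent.P052
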