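import Vale.Agent.P052.Surgery

/-! The non-face triples form a two-graph. -/

namespace Vale.Agent.P052

open Matrix Module

lemma le_finrank_of_orth {r m : ℕ} {b : Fin r → Fin m → ℝ} (hb : Orth b)
    (W : Submodule ℝ (Fin m → ℝ)) (hW : ∀ k, b k ∈ W) : r ≤ finrank ℝ W := by
  have hinj : Function.Injective (lin b) := by
    rw [← LinearMap.ker_eq_bot, LinearMap.ker_eq_bot']
    intro c hc
    by_contra h
    exact lin_ne hb h hc
  have h1 := LinearMap.finrank_range_of_inj hinj
  rw [Module.finrank_fin_fun] at h1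
  rw [← h1]
  apply Submodule.finrank_mono
  rintro _ ⟨c, rfl⟩
  rw [lin_apply]
  exact W.sum_mem fun k _ => W.smul_mem _ (hW k)

lemma mem_range_smat {m : ℕ} {v : Fin m → Fin m → ℝ} (hv : Orth v) (d : Fin m → ℝ) {k : Fin m}
    (hk : d k ≠ 0) : v k ∈ LinearMap.range (Matrix.toLin' (smat v d)) := by
  refine ⟨(d k)⁻¹ • v k, ?_⟩
  rw [toLin'_apply, smat_mulVec, Finset.sum_eq_single k]
  · rw [dotProduct_smul, hv, if_pos rfl, smul_eq_mul, mul_one, mul_inv_cancel₀ hk, one_smul]
  · intro l _ hl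
    rw [dotProduct_smul, hv, if_neg hl]; simp
  · simp

lemma psd_rank_two {A : Mat 4} (hA : Psd A) (h0 : A ≠ 0)
    (hr : finrank ℝ (LinearMap.range (Matrix.toLin' A)) ≤ 2) :
    ∃ (a b : Fin 4 → ℝ) (x y : ℝ), a ⬝ᵥ a = 1 ∧ b ⬝ᵥ b = 1 ∧ a ⬝ᵥ b = 0 ∧ 0 ≤ y ∧ y ≤ x ∧ 0 < x ∧
      A = x • vecMulVec a a + y • vecMulVec b b ∧
      (0 < y → 2 ≤ finrank ℝ (LinearMap.range (Matrix.toLin' A))) ∧
      a ∈ LinearMap.range (Matrix.toLin' A) ∧ (0 < y → b ∈ LinearMap.range (Matrix.toLin' A)) := by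
  obtain ⟨v, d, hv, hd, rfl⟩ := hA
  obtain ⟨k, -, hk⟩ := Finset.exists_max_image Finset.univ d Finset.univ_nonempty
  obtain ⟨l, hl, hl'⟩ := Finset.exists_max_image (Finset.univ.erase k) d
    (Finset.card_pos.1 (by simp))
  have hlk : l ≠ k := Finset.ne_of_mem_erase hl
  have hk0 : 0 < d k := by
    by_contra hle
    apply h0
    unfold smat
    apply Finset.sum_eq_zero
    intro j _
    rw [le_antisymm ((hk j (Finset.mem_univ _)).trans (not_lt.1 hle)) (hd j), zero_smul]
  have hrest : ∀ n, n ≠ k → n ≠ l → d n = 0 := by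
    intro n hnk hnl
    by_contra hn
    have hn0 : 0 < d n := lt_of_le_of_ne (hd n) (Ne.symm hn)
    have hl0 : 0 < d l := hn0.trans_le (hl' n (by simp [hnk]))
    have := le_finrank_of_orth (b := ![v k, v l, v n]) (by
      intro i j
      fin_cases i <;> fin_cases j <;> simp [hv _ _, hlk, hlk.symm, hnk, hnk.symm, hnl, hnl.symm])
      (LinearMap.range (Matrix.toLin' (smat v d))) (by
      intro i
      fin_cases i
      · exact mem_range_smat hv d hk0.ne'
      · exact mem_range_smat hv d hl0.ne'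
      · exact mem_range_smat hv d hn)
    omega
  refine ⟨v k, v l, d k, d l, by simp [hv _ _], by simp [hv _ _], by simp [hv _ _, hlk.symm], hd l,
    hk l (Finset.mem_univ _), hk0, ?_, fun hl0 => ?_, mem_range_smat hv d hk0.ne',
    fun hl0 => mem_range_smat hv d hl0.ne'⟩
  · unfold smat
    apply Finset.sum_eq_add_of_mem k l (Finset.mem_univ _) (Finset.mem_univ _) hlk.symm
    intro n _ hn
    rw [hrest n hn.1 hn.2, zero_smul]
  · apply le_finrank_of_orth (b := ![v k, v l])
    · intro i j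
      fin_cases i <;> fin_cases j <;> simp [hv _ _, hlk, hlk.symm]
    · intro i
      fin_cases i
      · exact mem_range_smat hv d hk0.ne'
      · exact mem_range_smat hv d hl0.ne'

noncomputable def gap (A : Mat 4) : ℝ := Real.sqrt (2 * (A * A).trace - A.trace ^ 2)
noncomputable def lam (A : Mat 4) : ℝ := (A.trace + gap A) / 2
noncomputable def mu (A : Mat 4) : ℝ := (A.trace - gap A) / 2
noncomputable def matX (A : Mat 4) : Mat 4 := A * A - mu A • A
noncomputable def matY (A : Mat 4) : Mat 4 := lam A • A - A * A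

lemma continuous_gap : Continuous gap := by
  have h1 : Continuous fun A : Mat 4 => A.trace := continuous_id.matrix_trace
  have h2 : Continuous fun A : Mat 4 => (A * A).trace :=
    (continuous_id.matrix_mul continuous_id).matrix_trace
  unfold gap
  fun_prop

lemma continuous_lam : Continuous lam := by
  have h1 : Continuous fun A : Mat 4 => A.trace := continuous_id.matrix_trace
  have := continuous_gap
  unfold lam
  fun_prop

lemma continuous_mu : Continuous mu := by
  have h1 : Continuous fun A : Mat 4 => A.trace := continuous_id.matrix_trace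
  have := continuous_gap
  unfold mu
  fun_prop

lemma continuous_matX : Continuous matX :=
  (continuous_id.matrix_mul continuous_id).sub (continuous_mu.smul continuous_id)

lemma continuous_matY : Continuous matY :=
  (continuous_lam.smul continuous_id).sub (continuous_id.matrix_mul continuous_id)

lemma two_eval {a b : Fin 4 → ℝ} {x y : ℝ} (ha : a ⬝ᵥ a = 1) (hb : b ⬝ᵥ b = 1) (hab : a ⬝ᵥ b = 0)
    (hyx : y ≤ x) {A : Mat 4} (hA : A = x • vecMulVec a a + y • vecMulVec b b) :
    lam A = x ∧ mu A = y ∧ matX A = (x * (x - y)) • vecMulVec a a ∧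
      matY A = (y * (x - y)) • vecMulVec b b := by
  have hba : b ⬝ᵥ a = 0 := by rw [dotProduct_comm, hab]
  have h2 : A * A = (x * x) • vecMulVec a a + (y * y) • vecMulVec b b := by
    rw [hA]
    simp only [add_mul, mul_add, smul_mul_smul_comm, vecMulVec_mul_vecMulVec, ha, hb, hab, hba]
    simp
  have ht : A.trace = x + y := by
    rw [hA]; simp [trace_vecMulVec, ha, hb]
  have hq : (A * A).trace = x * x + y * y := by
    rw [h2]; simp [trace_vecMulVec, ha, hb]
  have hg : gap A = x - y := by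
    rw [gap, ht, hq, show 2 * (x * x + y * y) - (x + y) ^ 2 = (x - y) ^ 2 by ring,
      Real.sqrt_sq (by linarith)]
  have hl : lam A = x := by rw [lam, ht, hg]; ring
  have hm : mu A = y := by rw [mu, ht, hg]; ring
  refine ⟨hl, hm, ?_, ?_⟩
  · rw [matX, hm, h2, hA]; module
  · rw [matY, hl, h2, hA]; module

namespace Col

lemma col_rank_one {m : ℕ} {I : Type} (C : Col m I) {a : Fin m → ℝ} (ha : a ⬝ᵥ a = 1) (c : ℝ)
    (i : I) : C.col (c • vecMulVec a a) i ↔ c ≠ 0 ∧ 0 < C.φ i a := by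
  have key : ∀ v, (c • vecMulVec a a) *ᵥ v = (c * (a ⬝ᵥ v)) • a := by
    intro v
    rw [smul_mulVec, vecMulVec_mulVec, mul_smul]; simp
  constructor
  · rintro ⟨v, hv⟩
    rw [key] at hv
    have h0 : c * (a ⬝ᵥ v) ≠ 0 := by
      intro h0
      exact C.ne_zero hv (by rw [h0, zero_smul])
    refine ⟨left_ne_zero_of_mul h0, ?_⟩
    have := C.smul i _ _ (inv_ne_zero h0) hv
    rwa [smul_smul, inv_mul_cancel₀ h0, one_smul] at this
  · rintro ⟨hc, h⟩
    refine ⟨a, ?_⟩
    rw [key, ha, mul_one]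
    exact C.smul i _ _ hc h

theorem no_cert {I : Type} [Fintype I] [DecidableEq I] (C : Col 4 I) (hI : Fintype.card I = 10)
    (r : Fin 4 → I) (hr : Function.Injective r) {N : Finset (Fin 4) → Bool}
    {z : Fin 4 → Fin 4 → Fin 4 → ℤ} {u : Fin 4 → ℤ} {L : List (Fin 4 → ℤ)} (hc : Cert N z u L)
    (hN : ∀ S, N S = true ↔ ¬ C.Face (S.image r)) : False := by
  classical
  obtain ⟨i₀, hi₀⟩ : ∃ i₀, i₀ ∉ Set.range r := by
    by_contra hall
    push Not at hall
    have := Fintype.card_le_of_surjective r hall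
    simp [hI] at this
  have hg := C.continuous_g
  refine C.surgery (by rw [hI]; decide) r hr i₀ hi₀
    (fun A l => max 0 (lam A - 2 * mu A) * C.g (r l) (matX A)
      + ∑ i, ∑ j, C.g (r i) (matX A) * C.g (r j) (matY A) * z i j l
      + max 0 (2 * mu A - lam A) * u l) ?_ ?_ ?_
  · have := continuous_lam
    have := continuous_mu
    have := continuous_matX
    have := continuous_matY
    fun_prop
  · funext l
    simp [lam, mu, gap, matX, matY, C.g_zero]
  intro A hA h0 hcol
  have hhas : ∀ k (S : Finset (Fin 4)), k ≤ finrank ℝ (LinearMap.range (Matrix.toLin' A)) →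
      (∀ l, C.col A (r l) → l ∈ S) → C.Has k (S.image r) := by
    intro k S hk hS
    refine ⟨_, hk, ?_⟩
    rintro _ ⟨v, rfl⟩ i hi
    obtain ⟨l, rfl⟩ := hcol i ⟨v, hi⟩
    exact Finset.mem_image_of_mem _ (hS l ⟨v, hi⟩)
  obtain ⟨a, b, x, y, ha, hb, hab, hy0, hyx, hx0, hAe, hrk, haA, hbA⟩ := psd_rank_two hA h0 (by
    by_contra hlt
    have h1 := (hhas 3 Finset.univ (by omega) (by simp)).card_ge
    have h2 : (Finset.univ.image r).card ≤ 4 := Finset.card_image_le.trans (by simp)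
    rw [show Nat.choose (3 + 1) 2 = 6 by decide] at h1
    omega)
  obtain ⟨hl, hm, hX, hY⟩ := two_eval ha hb hab hyx hAe
  set K : Finset (Fin 4) := Finset.univ.filter fun l => C.col A (r l) with hK
  set S : Finset (Fin 4) := Finset.univ.filter fun l => 0 < C.φ (r l) a with hS
  set T : Finset (Fin 4) := Finset.univ.filter fun l => 0 < y ∧ 0 < C.φ (r l) b with hT
  have hmemK : ∀ l, l ∈ K ↔ C.col A (r l) := by simp [hK]
  have hmemS : ∀ l, l ∈ S ↔ 0 < C.φ (r l) a := by simp [hS]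
  have hmemT : ∀ l, l ∈ T ↔ 0 < y ∧ 0 < C.φ (r l) b := by simp [hT]
  have hcola : ∀ i, 0 < C.φ i a → C.col A i := by
    intro i hi
    obtain ⟨v, hv⟩ := haA
    exact ⟨v, by rw [← toLin'_apply, hv]; exact hi⟩
  have hcolb : 0 < y → ∀ i, 0 < C.φ i b → C.col A i := by
    intro hy i hi
    obtain ⟨v, hv⟩ := hbA hy
    exact ⟨v, by rw [← toLin'_apply, hv]; exact hi⟩
  have hadm : Adm N K S T := by
    refine ⟨fun l hl => (hmemK l).2 (hcola _ ((hmemS l).1 hl)),
      fun l hl => (hmemK l).2 (hcolb ((hmemT l).1 hl).1 _ ((hmemT l).1 hl).2), ?_, ?_, ?_⟩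
    · rw [Finset.disjoint_left]
      intro l h1 h2
      exact C.orth _ _ _ ((hmemS l).1 h1) ((hmemT l).1 h2).2 hab
    · rw [← Bool.not_eq_true, hN, not_not]
      apply face_of_point (x := a)
      intro i hi
      obtain ⟨l, hl, rfl⟩ := Finset.mem_image.1 hi
      exact (hmemS l).1 hl
    · rw [← Bool.not_eq_true, hN, not_not]
      apply face_of_point (x := b)
      intro i hi
      obtain ⟨l, hl, rfl⟩ := Finset.mem_image.1 hi
      exact ((hmemT l).1 hl).2
  have hNK : 0 < y → N K = true := by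
    intro hy
    rw [hN, Face, not_not]
    exact hhas 2 K (hrk hy) fun l => (hmemK l).2
  have hSne : S.Nonempty := by
    obtain ⟨i, hi⟩ := C.cover a (by rintro rfl; simp at ha)
    obtain ⟨l, rfl⟩ := hcol i (hcola i hi)
    exact ⟨l, (hmemS l).2 hi⟩
  have hgX : ∀ l, l ∉ S → C.g (r l) (matX A) = 0 := by
    intro l hl
    apply C.g_eq_zero
    rw [hX, C.col_rank_one ha]
    exact fun h => hl ((hmemS l).2 h.2)
  have hgY : ∀ l, l ∉ T → C.g (r l) (matY A) = 0 := by
    intro l hl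
    apply C.g_eq_zero
    rw [hY, C.col_rank_one hb]
    exact fun h => hl ((hmemT l).2 ⟨lt_of_le_of_ne hy0 (left_ne_zero_of_mul h.1).symm, h.2⟩)
  obtain ⟨c0, c1⟩ := hc K S T hadm
  have hexp : ∀ ψ : Fin 4 → ℤ, ∑ l, (ψ l : ℝ) * (max 0 (lam A - 2 * mu A) * C.g (r l) (matX A)
      + ∑ i, ∑ j, C.g (r i) (matX A) * C.g (r j) (matY A) * z i j l
      + max 0 (2 * mu A - lam A) * u l) =
      max 0 (x - 2 * y) * ∑ l, (ψ l : ℝ) * C.g (r l) (matX A)
      + ∑ i, ∑ j, C.g (r i) (matX A) * C.g (r j) (matY A) * ((∑ l, ψ l * z i j l : ℤ) : ℝ)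
      + max 0 (2 * y - x) * ((∑ l, ψ l * u l : ℤ) : ℝ) := by
    intro ψ
    rw [hl, hm]
    simp only [Fin.sum_univ_four]
    push_cast
    ring
  have hterm : ∀ ψ, Good z K S T ψ → ∀ i j, 0 ≤ C.g (r i) (matX A) * C.g (r j) (matY A) *
      ((∑ l, ψ l * z i j l : ℤ) : ℝ) := by
    intro ψ hψ i j
    by_cases hi : i ∈ S
    · by_cases hj : j ∈ T
      · exact mul_nonneg (mul_nonneg (C.g_nonneg _ _) (C.g_nonneg _ _))
          (by exact_mod_cast (hψ.2.1 i hi j hj).le)
      · rw [hgY j hj]; simp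
    · rw [hgX i hi]; simp
  have hmid : ∀ ψ, Good z K S T ψ → 0 ≤ ∑ i, ∑ j, C.g (r i) (matX A) * C.g (r j) (matY A) *
      ((∑ l, ψ l * z i j l : ℤ) : ℝ) := fun ψ hψ =>
    Finset.sum_nonneg fun i _ => Finset.sum_nonneg fun j _ => hterm ψ hψ i j
  have fin : ∀ ψ, Good z K S T ψ → 0 < max 0 (x - 2 * y) * ∑ l, (ψ l : ℝ) * C.g (r l) (matX A)
      + ∑ i, ∑ j, C.g (r i) (matX A) * C.g (r j) (matY A) * ((∑ l, ψ l * z i j l : ℤ) : ℝ)
      + max 0 (2 * y - x) * ((∑ l, ψ l * u l : ℤ) : ℝ) → ∃ ψ : Fin 4 → ℝ,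
      ∑ l, ψ l = 0 ∧ 0 < ∑ l, ψ l * (max 0 (lam A - 2 * mu A) * C.g (r l) (matX A)
      + ∑ i, ∑ j, C.g (r i) (matX A) * C.g (r j) (matY A) * z i j l
      + max 0 (2 * mu A - lam A) * u l) ∧ ∀ l, ¬ C.col A (r l) → ψ l ≤ 0 := by
    intro ψ hψ hpos
    refine ⟨fun l => ψ l, by beta_reduce; exact_mod_cast hψ.1, by rw [hexp]; exact hpos,
      fun l hl => ?_⟩
    beta_reduce
    exact_mod_cast hψ.2.2 l fun h => hl ((hmemK l).1 h)
  by_cases hst : 2 * y ≤ x
  · have hxy : 0 < x - y := by linarith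
    have hgXp : ∀ l ∈ S, 0 < C.g (r l) (matX A) := by
      intro l hl
      rw [C.g_pos_iff, hX, C.col_rank_one ha]
      exact ⟨(mul_pos hx0 hxy).ne', (hmemS l).1 hl⟩
    obtain ⟨ψ, -, hp, hψ⟩ := c0 hSne (by
      rcases eq_or_lt_of_le hy0 with hy | hy
      · right
        constructor
        · ext l
          rw [hmemK, hmemS, hAe, ← hy, zero_smul, add_zero, C.col_rank_one ha]
          simp [hx0.ne']
        · ext l
          simp [hmemT, ← hy]
      · exact Or.inl (hNK hy))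
    refine fin ψ hψ ?_
    have hfirst : 0 < ∑ l, (ψ l : ℝ) * C.g (r l) (matX A) := by
      obtain ⟨l, hl⟩ := hSne
      apply Finset.sum_pos'
      · intro i _
        by_cases hi : i ∈ S
        · exact mul_nonneg (by exact_mod_cast (hp i hi).le) (C.g_nonneg _ _)
        · rw [hgX i hi, mul_zero]
      · exact ⟨l, Finset.mem_univ _, mul_pos (by exact_mod_cast hp l hl) (hgXp l hl)⟩
    rw [max_eq_left (by linarith : 2 * y - x ≤ 0), zero_mul, add_zero,
      max_eq_right (by linarith : 0 ≤ x - 2 * y)]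
    rcases eq_or_lt_of_le hy0 with hy | hy
    · have := hmid ψ hψ
      have := mul_pos (by linarith : 0 < x - 2 * y) hfirst
      linarith
    · have h1 := mul_nonneg (by linarith : 0 ≤ x - 2 * y) hfirst.le
      obtain ⟨i, hi⟩ := hSne
      obtain ⟨j', hj'⟩ := C.cover b (by rintro rfl; simp at hb)
      obtain ⟨j, rfl⟩ := hcol j' (hcolb hy j' hj')
      have hj : j ∈ T := (hmemT j).2 ⟨hy, hj'⟩
      have h2 : 0 < ∑ i, ∑ j, C.g (r i) (matX A) * C.g (r j) (matY A) *
          ((∑ l, ψ l * z i j l : ℤ) : ℝ) := by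
        refine Finset.sum_pos' (fun i _ => Finset.sum_nonneg fun j _ => hterm ψ hψ i j)
          ⟨i, Finset.mem_univ _, Finset.sum_pos' (fun j _ => hterm ψ hψ i j)
            ⟨j, Finset.mem_univ _, mul_pos (mul_pos (hgXp i hi) ?_) ?_⟩⟩
        · rw [C.g_pos_iff, hY, C.col_rank_one hb]
          exact ⟨(mul_pos hy hxy).ne', hj'⟩
        · exact_mod_cast hψ.2.1 i hi j hj
      linarith
  · obtain ⟨ψ, -, hp, hψ⟩ := c1 (hNK (by linarith))
    refine fin ψ hψ ?_
    rw [max_eq_left (by linarith : x - 2 * y ≤ 0), zero_mul, zero_add,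
      max_eq_right (by linarith : 0 ≤ 2 * y - x)]
    have h1 := hmid ψ hψ
    have h2 : (0 : ℝ) < ((∑ l, ψ l * u l : ℤ) : ℝ) := by exact_mod_cast hp
    have := mul_pos (by linarith : 0 < 2 * y - x) h2
    linarith

section par

variable {I : Type} [Fintype I] [DecidableEq I] {C : Col 4 I}

omit [Fintype I] in
lemma image_sub (r : Fin 4 → I) (S T : Finset (Fin 4)) (h : S ⊆ T) (hT : C.Face (T.image r)) :
    C.Face (S.image r) := hT.mono (Finset.image_subset_image h)

theorem not_one (hI : Fintype.card I = 10) (r : Fin 4 → I) (hr : Function.Injective r)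
    (h3 : ¬ C.Face {r 0, r 1, r 2}) (h2 : C.Face {r 0, r 1, r 3}) (h1 : C.Face {r 0, r 2, r 3})
    (h0 : C.Face {r 1, r 2, r 3}) : False := by
  refine C.no_cert hI r hr cert1 fun S => ⟨fun hS hF => h3 ?_, fun hF => ?_⟩
  · have : ∀ S, N1 S = true → {0, 1, 2} ⊆ S := by decide +kernel
    simpa using image_sub r _ _ (this S hS) hF
  · by_contra hS
    have : ∀ S, ¬ N1 S = true → S ⊆ {0, 1, 3} ∨ S ⊆ {0, 2, 3} ∨ S ⊆ {1, 2, 3} := by decide +kernel
    rcases this S hS with h | h | h <;> exact hF (image_sub r _ _ h (by simpa))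

theorem not_three (hI : Fintype.card I = 10) (r : Fin 4 → I) (hr : Function.Injective r)
    (h3 : C.Face {r 0, r 1, r 2}) (h2 : ¬ C.Face {r 0, r 1, r 3}) (h1 : ¬ C.Face {r 0, r 2, r 3})
    (h0 : ¬ C.Face {r 1, r 2, r 3}) : False := by
  refine C.no_cert hI r hr cert3 fun S => ⟨fun hS hF => ?_, fun hF => ?_⟩
  · have : ∀ S, N3 S = true → {0, 1, 3} ⊆ S ∨ {0, 2, 3} ⊆ S ∨ {1, 2, 3} ⊆ S := by decide +kernel
    rcases this S hS with h | h | h
    · exact h2 (by simpa using image_sub r _ _ h hF)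
    · exact h1 (by simpa using image_sub r _ _ h hF)
    · exact h0 (by simpa using image_sub r _ _ h hF)
  · by_contra hS
    have : ∀ S, ¬ N3 S = true → S ⊆ {0, 1, 2} ∨ S.card ≤ 2 := by decide +kernel
    rcases this S hS with h | h
    · exact hF (image_sub r _ _ h (by simpa))
    · exact hF (face_of_card (Finset.card_image_le.trans h))

omit [Fintype I] [DecidableEq I] in
lemma inj4 {a b c d : I} (hab : a ≠ b) (hac : a ≠ c) (had : a ≠ d) (hbc : b ≠ c) (hbd : b ≠ d)
    (hcd : c ≠ d) : Function.Injective ![a, b, c, d] := by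
  intro i j h
  fin_cases i <;> fin_cases j <;> simp_all

omit [Fintype I] in
lemma face_pair (a b : I) : C.Face {a, b} := face_of_card Finset.card_le_two

omit [Fintype I] in
lemma c12 (a b c : I) : ({a, b, c} : Finset I) = {b, a, c} := Finset.insert_comm _ _ _

omit [Fintype I] in
lemma c23 (a b c : I) : ({a, b, c} : Finset I) = {a, c, b} := by rw [Finset.pair_comm b c]

lemma prop_par {P Q R S : Prop} (p1 : ¬ P → Q → R → S → False) (p2 : ¬ Q → P → R → S → False)
    (p3 : ¬ R → P → Q → S → False) (p4 : ¬ S → P → Q → R → False)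
    (q1 : P → ¬ Q → ¬ R → ¬ S → False) (q2 : Q → ¬ P → ¬ R → ¬ S → False)
    (q3 : R → ¬ P → ¬ Q → ¬ S → False) (q4 : S → ¬ P → ¬ Q → ¬ R → False) :
    (P ↔ Q) ↔ (R ↔ S) := by
  by_cases hP : P <;> by_cases hQ : Q <;> by_cases hR : R <;> by_cases hS : S <;> simp_all

theorem parity' (hI : Fintype.card I = 10) {a b c d : I} (hab : a ≠ b) (hac : a ≠ c) (had : a ≠ d)
    (hbc : b ≠ c) (hbd : b ≠ d) (hcd : c ≠ d) :
    (C.Face {a, b, c} ↔ C.Face {a, b, d}) ↔ (C.Face {a, c, d} ↔ C.Face {b, c, d}) := by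
  have p1 := not_one (C := C) hI _ (inj4 hab hac had hbc hbd hcd)
  have p2 := not_one (C := C) hI _ (inj4 hab had hac hbd hbc (Ne.symm hcd))
  have p3 := not_one (C := C) hI _ (inj4 hac had hab hcd (Ne.symm hbc) (Ne.symm hbd))
  have p4 := not_one (C := C) hI _ (inj4 hbc hbd (Ne.symm hab) hcd (Ne.symm hac) (Ne.symm had))
  have q1 := not_three (C := C) hI _ (inj4 hab hac had hbc hbd hcd)
  have q2 := not_three (C := C) hI _ (inj4 hab had hac hbd hbc (Ne.symm hcd))
  have q3 := not_three (C := C) hI _ (inj4 hac had hab hcd (Ne.symm hbc) (Ne.symm hbd))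
  have q4 := not_three (C := C) hI _ (inj4 hbc hbd (Ne.symm hab) hcd (Ne.symm hac) (Ne.symm had))
  simp only [Matrix.cons_val_zero, Matrix.cons_val_one, Matrix.cons_val] at p1 p2 p3 p4 q1 q2 q3 q4
  rw [c23 a d c, c23 b d c] at p2 q2
  rw [c23 a c b, c23 a d b, c23 c d b, c12 c b d] at p3 q3
  rw [c23 b c a, c12 b a c, c23 b d a, c12 b a d, c23 c d a, c12 c a d] at p4 q4
  exact prop_par p1 p2 p3 p4 q1 q2 q3 q4

omit [Fintype I] in
lemma face_aab (a b : I) : C.Face {a, a, b} := by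
  rw [Finset.insert_eq_of_mem (Finset.mem_insert_self _ _)]; exact face_pair a b

omit [Fintype I] in
lemma face_aba (a b : I) : C.Face {a, b, a} := by rw [c23]; exact face_aab a b

omit [Fintype I] in
lemma face_abb (a b : I) : C.Face {a, b, b} := by rw [c12]; exact face_aba b a

theorem parity (hI : Fintype.card I = 10) (a b c d : I) :
    (C.Face {a, b, c} ↔ C.Face {a, b, d}) ↔ (C.Face {a, c, d} ↔ C.Face {b, c, d}) := by
  by_cases hab : a = b
  · subst hab; simp only [face_aab]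
  by_cases hac : a = c
  · subst hac
    rw [c12 b a d]
    simp only [face_aab, face_aba]
  by_cases had : a = d
  · subst had
    rw [c23 b c a, c12 b a c]
    simp only [face_aba, iff_true, true_iff]
  by_cases hbc : b = c
  · subst hbc; simp only [face_abb, face_aab, iff_true, true_iff]
  by_cases hbd : b = d
  · subst hbd
    rw [c23 a c b]
    simp only [face_abb, face_aba]
  by_cases hcd : c = d
  · subst hcd; simp only [face_abb]
  exact parity' hI hab hac had hbc hbd hcd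

end par

end Col

end Vale.Agent.P052
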