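import Vale.Agent.P052.Col
import Vale.Agent.P052.Cert

/-! Modifying the odd map near one ray: a set of four colours contains an even number of
non-face triples. -/

namespace Vale.Agent.P052

open Matrix Module

lemma Psd.trace_pos {m : ℕ} {A : Mat m} (h : Psd A) (h0 : A ≠ 0) : 0 < A.trace := by
  obtain ⟨v, d, hv, hd, rfl⟩ := h
  rw [smat_trace hv]
  refine lt_of_le_of_ne (Finset.sum_nonneg fun k _ => hd k) fun h => h0 ?_
  have := (Finset.sum_eq_zero_iff_of_nonneg fun k _ => hd k).1 h.symm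
  unfold smat
  exact Finset.sum_eq_zero fun k hk => by rw [this k hk, zero_smul]

namespace Col

theorem surgery {m : ℕ} {I κ : Type} [Fintype I] [Fintype κ] [Nonempty κ] (C : Col m I)
    (h : Fintype.card I ≤ (m + 1).choose 2) (r : κ → I) (hr : Function.Injective r) (i₀ : I)
    (hi₀ : i₀ ∉ Set.range r) (Φ : Mat m → κ → ℝ) (hΦ : Continuous Φ) (hΦ0 : Φ 0 = 0)
    (hψ : ∀ A, Psd A → A ≠ 0 → (∀ i, C.col A i → i ∈ Set.range r) → ∃ ψ : κ → ℝ,
      ∑ l, ψ l = 0 ∧ 0 < ∑ l, ψ l * Φ A l ∧ ∀ l, ¬ C.col A (r l) → ψ l ≤ 0) : False := by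
  classical
  rw [← card_sym2] at h
  have hp := continuous_posM (m := m)
  have hg := C.continuous_g
  obtain ⟨Ψ, hΨ⟩ : ∃ Ψ : Mat m → κ → ℝ, Ψ = fun A l => Φ A l + (∑ l', |Φ A l'| + A.trace) :=
    ⟨_, rfl⟩
  have hΨc : Continuous Ψ := by
    rw [hΨ]
    have : Continuous fun A : Mat m => A.trace := continuous_id.matrix_trace
    fun_prop
  have hΨ0 : ∀ l, Ψ 0 l = 0 := by intro l; simp [hΨ, hΦ0]
  have hΨp : ∀ A, Psd A → A ≠ 0 → ∀ l, 0 < Ψ A l := by
    intro A hA h0 l
    have h1 := hA.trace_pos h0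
    have h2 := Finset.single_le_sum (f := fun l' => |Φ A l'|) (fun _ _ => abs_nonneg _)
      (Finset.mem_univ l)
    have h3 := neg_abs_le (Φ A l)
    simp only [hΨ]
    linarith
  obtain ⟨E, hE⟩ : ∃ E : Mat m → I → ℝ, E = fun A i => ∑ l, if r l = i then Ψ A l else 0 :=
    ⟨_, rfl⟩
  have hEc : ∀ i, Continuous fun A => E A i := by
    intro i
    rw [hE]
    apply continuous_finsetSum
    intro l _
    split_ifs <;> fun_prop
  have hE1 : ∀ A l, E A (r l) = Ψ A l := by intro A l; simp [hE, hr.eq_iff]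
  have hE2 : ∀ A, ∀ i ∉ Set.range r, E A i = 0 := by
    intro A i hi
    rw [hE]
    exact Finset.sum_eq_zero fun l _ => if_neg fun h => hi ⟨l, h⟩
  obtain ⟨χ, hχ⟩ : ∃ χ : Mat m → ℝ,
      χ = fun B => ∏ i ∈ Finset.univ.filter (fun i => i ∉ Set.range r), C.g i B := ⟨_, rfl⟩
  have hχc : Continuous χ := by rw [hχ]; fun_prop
  have hχ0 : ∀ B, 0 ≤ χ B := by
    intro B; rw [hχ]; exact Finset.prod_nonneg fun i _ => C.g_nonneg i B
  have hχ1 : ∀ B, C.g i₀ B = 0 → χ B = 0 := by
    intro B hB; rw [hχ]; exact Finset.prod_eq_zero (i := i₀) (by simpa using hi₀) hB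
  obtain ⟨Z, hZ⟩ : ∃ Z : Set ((Sym2 (Fin m) → ℝ) × ℝ), Z = (l1Sphere _ ×ˢ Set.Icc 0 1) ∩
      {p | (∀ i ∉ Set.range r, C.g i (posM (-p.1)) = C.g i₀ (posM (-p.1)) ∧
        C.g i (posM p.1) = 0) ∧ ∀ l, (1 - p.2) * C.g (r l) (posM p.1) + p.2 * Ψ (posM p.1) l
          - C.g (r l) (posM (-p.1)) = C.g i₀ (posM (-p.1))} := ⟨_, rfl⟩
  have hZc : IsCompact Z := by
    rw [hZ]
    apply ((isCompact_l1Sphere _).prod isCompact_Icc).inter_right
    simp only [Set.ofPred_and, Set.ofPred_forall]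
    refine IsClosed.inter (isClosed_iInter fun i => isClosed_iInter fun _ => IsClosed.inter ?_ ?_)
      (isClosed_iInter fun l => ?_)
    all_goals apply isClosed_eq <;> fun_prop
  obtain ⟨δ, hδ, hδZ⟩ := hZc.exists_forall_le' (f := fun p => χ (posM (-p.1))) (a := 0)
    (by fun_prop) (by
      rw [hZ]
      rintro ⟨c, s⟩ ⟨⟨hc, hs0, hs1⟩, h1, h2⟩
      simp only at hc hs0 hs1 h1 h2 ⊢
      have hd := dec_posM c
      have hpos : 0 < C.g i₀ (posM (-c)) := by
        refine lt_of_le_of_ne (C.g_nonneg _ _) fun h0 => ?_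
        by_cases hA : posM c = 0
        · obtain ⟨i, hi⟩ := C.ne_of_dec hd (symM_ne (ne_zero_of_mem_l1Sphere hc))
          apply hi
          by_cases hir : i ∈ Set.range r
          · obtain ⟨l, rfl⟩ := hir
            have := h2 l
            rw [hA, C.g_zero, hΨ0, ← h0] at this
            rw [hA, C.g_zero]
            linarith
          · rw [(h1 i hir).1, (h1 i hir).2, ← h0, sub_zero]
        · obtain ⟨j, hj⟩ := C.exists_col hA
          have hj' := (C.g_pos_iff _ _).2 hj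
          by_cases hjr : j ∈ Set.range r
          · obtain ⟨l, rfl⟩ := hjr
            have h3 := h2 l
            rw [C.g_eq_zero (P := posM (-c)) fun hB => C.not_col_both hd hj hB, ← h0] at h3
            have h4 := hΨp _ hd.pA hA l
            rcases eq_or_lt_of_le hs0 with h5 | h5
            · rw [← h5] at h3; linarith
            · nlinarith [mul_pos h5 h4, mul_nonneg (sub_nonneg.2 hs1) hj'.le]
          · exact hj'.ne' (h1 j hjr).2
      rw [hχ]
      apply Finset.prod_pos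
      intro i hi
      rw [(h1 i (Finset.mem_filter.1 hi).2).1]
      exact hpos)
  obtain ⟨s, hs⟩ : ∃ s : Mat m → ℝ, s = fun B => min 1 (χ B / δ) := ⟨_, rfl⟩
  have hsc : Continuous s := by rw [hs]; fun_prop
  have hs0 : ∀ B, 0 ≤ s B := by
    intro B; rw [hs]; exact le_min zero_le_one (div_nonneg (hχ0 B) hδ.le)
  have hs1 : ∀ B, s B ≤ 1 := by intro B; rw [hs]; exact min_le_left _ _
  have hs2 : ∀ B, C.g i₀ B = 0 → s B = 0 := by intro B hB; simp [hs, hχ1 B hB]
  obtain ⟨c, hc, τ, hτ, h0⟩ := exists_ray h (fun c i =>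
    ((1 - s (posM (-c))) * C.g i (posM c) + s (posM (-c)) * E (posM c) i) -
    ((1 - s (posM c)) * C.g i (posM (-c)) + s (posM c) * E (posM (-c)) i)) (by fun_prop) (by
      intro c
      funext i
      simp) (fun i => if i ∈ Set.range r then 1 else -1) i₀ (by rw [if_neg hi₀]; norm_num)
  have hd := dec_posM c
  have hZ' : (c, s (posM (-c))) ∈ Z → δ ≤ χ (posM (-c)) := hδZ _
  rw [hZ] at hZ'
  simp only [Set.mem_inter_iff, Set.mem_prod, Set.mem_Icc, Set.mem_ofPred_eq] at hZ'
  obtain ⟨i₁, hi₁⟩ := C.ne_of_dec hd (symM_ne (ne_zero_of_mem_l1Sphere hc))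
  generalize posM c = A at *
  generalize posM (-c) = B at *
  have hA0 : s A = 0 := by
    apply hs2
    rcases C.g_mul_g hd i₀ with h1 | h1
    · exact h1
    · have := h0 i₀
      rw [if_neg hi₀, hE2 _ _ hi₀, hE2 _ _ hi₀, hs2 B h1, h1] at this
      linarith [C.g_nonneg i₀ A]
  simp only [hA0, sub_zero, one_mul, zero_mul, add_zero] at h0
  have hτ' : 0 < τ := by
    refine lt_of_le_of_ne hτ ?_
    rintro rfl
    have hB0 : s B = 0 := by
      apply hs2
      rcases C.g_mul_g hd i₀ with h1 | h1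
      · have := h0 i₀
        rw [hE2 _ _ hi₀, h1] at this
        linarith
      · exact h1
    have := h0 i₁
    rw [hB0] at this
    exact hi₁ (by linarith)
  have hout : ∀ i ∉ Set.range r, C.g i B = τ ∧ C.g i A = 0 := by
    intro i hi
    have := h0 i
    rw [if_neg hi, hE2 _ _ hi] at this
    rcases C.g_mul_g hd i with h1 | h1
    · rw [h1] at this
      exact ⟨by linarith, h1⟩
    · rw [h1] at this
      nlinarith [mul_nonneg (sub_nonneg.2 (hs1 B)) (C.g_nonneg i A)]
  have hin : ∀ l, (1 - s B) * C.g (r l) A + s B * Ψ A l - C.g (r l) B = τ := by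
    intro l
    have := h0 (r l)
    rwa [if_pos ⟨l, rfl⟩, hE1, mul_one] at this
  have hδB := hZ' ⟨⟨hc, hs0 B, hs1 B⟩, fun i hi => ⟨by rw [(hout i hi).1, (hout i₀ hi₀).1],
    (hout i hi).2⟩, fun l => by rw [hin l, (hout i₀ hi₀).1]⟩
  have hB1 : s B = 1 := by
    rw [hs]
    exact min_eq_left ((one_le_div hδ).2 hδB)
  simp only [hB1, sub_self, zero_mul, one_mul, zero_add] at hin
  have hA : A ≠ 0 := by
    rintro rfl
    have := hin (Classical.arbitrary κ)
    rw [hΨ0] at this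
    linarith [C.g_nonneg (r (Classical.arbitrary κ)) B]
  obtain ⟨ψ, h1, h2, h3⟩ := hψ A hd.pA hA fun i hi => by
    by_contra hir
    exact ((C.g_pos_iff _ _).2 hi).ne' (hout i hir).2
  have h4 : ∑ l, ψ l * Φ A l = ∑ l, ψ l * C.g (r l) B := by
    have : ∀ l, ψ l * Φ A l = ψ l * C.g (r l) B + ψ l * (τ - (∑ l', |Φ A l'| + A.trace)) := by
      intro l
      have := hin l
      simp only [hΨ] at this
      rw [← this]; ring
    simp only [this]
    rw [Finset.sum_add_distrib, ← Finset.sum_mul, h1, zero_mul, add_zero]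
  have h5 : ∑ l, ψ l * C.g (r l) B ≤ 0 := by
    apply Finset.sum_nonpos
    intro l _
    by_cases hl : C.col A (r l)
    · rw [C.g_eq_zero (P := B) fun hB => C.not_col_both hd hl hB, mul_zero]
    · exact mul_nonpos_of_nonpos_of_nonneg (h3 l hl) (C.g_nonneg _ _)
  linarith

end Col

end Vale.Agent.P052
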