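import Vale.Agent.P052.Final

/-! The Veronese embedding of real projective three-space, plus a regular simplex of apexes. -/

namespace Vale.Agent.P052

open Matrix

/-- a colouring from invariant open sets -/
noncomputable def Col.ofOpen {m : ℕ} {I : Type} (U : I → Set (Fin m → ℝ)) (ho : ∀ i, IsOpen (U i))
    (hs : ∀ i x (c : ℝ), c ≠ 0 → x ∈ U i → c • x ∈ U i) (hc : ∀ x, x ≠ 0 → ∃ i, x ∈ U i)
    (hp : ∀ i, ∀ x ∈ U i, ∀ y ∈ U i, x ⬝ᵥ y ≠ 0) : Col m I :=
  have key : ∀ i x, 0 < Metric.infDist x (U i)ᶜ + Metric.infDist (-x) (U i)ᶜ ↔ x ∈ U i := by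
    intro i x
    have hne : (U i)ᶜ.Nonempty := ⟨0, fun h => hp i 0 h 0 h (by simp)⟩
    have h1 := fun z => (ho i).isClosed_compl.notMem_iff_infDist_pos (x := z) hne
    simp only [Set.mem_compl_iff, not_not] at h1
    constructor
    · intro h
      by_contra hx
      have h2 : ¬ -x ∈ U i := fun h' => hx (by simpa using hs i _ (-1) (by norm_num) h')
      rw [h1] at hx h2
      linarith
    · intro h
      exact add_pos_of_pos_of_nonneg ((h1 x).1 h) Metric.infDist_nonneg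
  { φ := fun i x => Metric.infDist x (U i)ᶜ + Metric.infDist (-x) (U i)ᶜ
    cont := fun i => (Metric.continuous_infDist_pt _).add
      ((Metric.continuous_infDist_pt _).comp continuous_neg)
    nonneg := fun _ _ => add_nonneg Metric.infDist_nonneg Metric.infDist_nonneg
    even := fun i x => by rw [neg_neg, add_comm]
    smul := fun i x c hc0 h => (key i _).2 (hs i x c hc0 ((key i x).1 h))
    cover := fun x hx => (hc x hx).imp fun i hi => (key i x).2 hi
    orth := fun i x y hx hy => hp i x ((key i x).1 hx) y ((key i y).1 hy) }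

noncomputable def ver (x : Fin 4 → ℝ) : Fin 9 → ℝ :=
  ![√2 * (x 0 * x 1), √2 * (x 0 * x 2), √2 * (x 0 * x 3), √2 * (x 1 * x 2), √2 * (x 1 * x 3),
    √2 * (x 2 * x 3), (x 0 ^ 2 + x 1 ^ 2 - x 2 ^ 2 - x 3 ^ 2) / 2,
    (x 0 ^ 2 - x 1 ^ 2 + x 2 ^ 2 - x 3 ^ 2) / 2, (x 0 ^ 2 - x 1 ^ 2 - x 2 ^ 2 + x 3 ^ 2) / 2]

lemma continuous_ver : Continuous ver := by
  unfold ver
  fun_prop

lemma ver_dot (x y : Fin 4 → ℝ) : ver x ⬝ᵥ ver y = (x ⬝ᵥ y) ^ 2 - (x ⬝ᵥ x) * (y ⬝ᵥ y) / 4 := by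
  have h : √2 * √2 = 2 := Real.mul_self_sqrt (by norm_num)
  simp only [dotProduct, ver, Fin.sum_univ_succ, Fin.sum_univ_zero, Matrix.cons_val_zero,
    Matrix.cons_val_succ, Fin.succ_zero_eq_one, Fin.succ_one_eq_two,
    show (Fin.succ (2 : Fin 3)) = (3 : Fin 4) from rfl, Fin.isValue]
  linear_combination (x 0 * x 1 * (y 0 * y 1) + x 0 * x 2 * (y 0 * y 2) + x 0 * x 3 * (y 0 * y 3)
    + x 1 * x 2 * (y 1 * y 2) + x 1 * x 3 * (y 1 * y 3) + x 2 * x 3 * (y 2 * y 3)) * h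

lemma ver_smul (c : ℝ) (x : Fin 4 → ℝ) : ver (c • x) = (c * c) • ver x := by
  funext i
  fin_cases i <;> simp [ver] <;> ring

lemma dist_append {k : ℕ} (a a' : Fin 9 → ℝ) (b b' : Fin k → ℝ) :
    dist (WithLp.toLp 2 (Fin.append a b) : EuclideanSpace ℝ (Fin (9 + k)))
      (WithLp.toLp 2 (Fin.append a' b')) = √((a - a') ⬝ᵥ (a - a') + (b - b') ⬝ᵥ (b - b')) := by
  rw [EuclideanSpace.dist_eq, Fin.sum_univ_add]
  simp only [Fin.append_left, Fin.append_right, Real.dist_eq, dotProduct, Pi.sub_apply, sq,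
    abs_mul_abs_self]

noncomputable def vp (k : ℕ) (x : Fin 4 → ℝ) : EuclideanSpace ℝ (Fin (9 + k)) :=
  WithLp.toLp 2 (Fin.append ((x ⬝ᵥ x)⁻¹ • ver x) 0)

noncomputable def cc (k : ℕ) : ℝ := 1 / (4 * (1 + √(1 + k / 4)))

noncomputable def ap (k : ℕ) (j : Fin k) : EuclideanSpace ℝ (Fin (9 + k)) :=
  WithLp.toLp 2 (Fin.append 0 (fun l => (if l = j then 1 else 0) + cc k))

lemma cc_eq (k : ℕ) : 1 + 2 * cc k + k * cc k ^ 2 = 5 / 4 := by
  have h0 : (0 : ℝ) ≤ 1 + k / 4 := by positivity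
  have h := Real.mul_self_sqrt h0
  have h1 := Real.sqrt_nonneg (1 + k / 4 : ℝ)
  unfold cc
  generalize √(1 + k / 4 : ℝ) = s at *
  have hk : (k : ℝ) = 4 * (s * s - 1) := by linarith
  rw [hk]
  field_simp
  ring

lemma self_pos {x : Fin 4 → ℝ} (hx : x ≠ 0) : 0 < x ⬝ᵥ x :=
  lt_of_le_of_ne (Finset.sum_nonneg fun _ _ => mul_self_nonneg _)
    fun h => hx (dotProduct_self_eq_zero.1 h.symm)

lemma dist_vp (k : ℕ) {x y : Fin 4 → ℝ} (hx : x ≠ 0) (hy : y ≠ 0) :
    dist (vp k x) (vp k y) = √(2 - 2 * ((x ⬝ᵥ y) ^ 2 / ((x ⬝ᵥ x) * (y ⬝ᵥ y)))) := by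
  have h1 := self_pos hx
  have h2 := self_pos hy
  rw [vp, vp, dist_append]
  congr 1
  simp only [sub_dotProduct, dotProduct_sub, smul_dotProduct, dotProduct_smul, ver_dot,
    smul_eq_mul, dotProduct_comm y x, sub_self, dotProduct_zero]
  field_simp
  ring

lemma dist_vp_ap (k : ℕ) {x : Fin 4 → ℝ} (hx : x ≠ 0) (j : Fin k) :
    dist (vp k x) (ap k j) = √2 := by
  have h1 := self_pos hx
  rw [vp, ap, dist_append]
  congr 1
  have h2 : ∀ l : Fin k, ((if l = j then 1 else 0) + cc k) * ((if l = j then 1 else 0) + cc k)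
      = (if l = j then 1 + 2 * cc k else 0) + cc k ^ 2 := by
    intro l; split_ifs <;> ring
  rw [sub_zero, zero_sub, neg_dotProduct, dotProduct_neg, neg_neg, smul_dotProduct,
    dotProduct_smul, ver_dot]
  conv_lhs => congr; rfl; rw [dotProduct]
  simp only [h2, Finset.sum_add_distrib, Finset.sum_ite_eq', Finset.mem_univ, if_true,
    Finset.sum_const, Finset.card_univ, Fintype.card_fin, nsmul_eq_mul, cc_eq, smul_eq_mul]
  field_simp
  ring

lemma dist_ap (k : ℕ) {j l : Fin k} (h : j ≠ l) : dist (ap k j) (ap k l) = √2 := by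
  rw [ap, ap, dist_append]
  congr 1
  have h2 : ∀ n : Fin k, ((if n = j then 1 else 0) + cc k - ((if n = l then 1 else 0) + cc k)) *
      ((if n = j then 1 else 0) + cc k - ((if n = l then 1 else 0) + cc k))
      = (if n = j then 1 else 0) + (if n = l then 1 else 0) := by
    intro n
    split_ifs with h1 h2
    · exact absurd (h1.symm.trans h2) h
    all_goals ring
  simp only [sub_self, dotProduct, Pi.sub_apply, h2, Finset.sum_add_distrib, Finset.sum_ite_eq']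
  norm_num

lemma vp_smul (k : ℕ) (x : Fin 4 → ℝ) {c : ℝ} (hc : c ≠ 0) : vp k (c • x) = vp k x := by
  unfold vp
  rw [ver_smul, smul_dotProduct, dotProduct_smul, smul_smul, smul_smul, smul_eq_mul, mul_inv,
    mul_comm _ (x ⬝ᵥ x)⁻¹, mul_assoc, inv_mul_cancel₀ (mul_ne_zero hc hc), mul_one]

lemma continuousOn_vp (k : ℕ) : ContinuousOn (vp k) {x | x ≠ 0} := by
  have h1 : ContinuousOn (fun x : Fin 4 → ℝ => (x ⬝ᵥ x)⁻¹ • ver x) {x | x ≠ 0} :=
    ((continuous_id.dotProduct continuous_id).continuousOn.inv₀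
      fun x hx => (self_pos hx).ne').smul continuous_ver.continuousOn
  have h2 : Continuous fun a : Fin 9 → ℝ => (WithLp.toLp 2 (Fin.append a (0 : Fin k → ℝ)) :
      EuclideanSpace ℝ (Fin (9 + k))) := by fun_prop
  exact h2.comp_continuousOn h1

theorem borsuk_fails (k : ℕ) : ∃ Y : Set (EuclideanSpace ℝ (Fin (9 + k))),
    Bornology.IsBounded Y ∧ 0 < Metric.diam Y ∧
      ¬ ∃ Z : Fin (9 + k + 1) → Set (EuclideanSpace ℝ (Fin (9 + k))),
        ⋃ i, Z i = Y ∧ ∀ i, Metric.diam (Z i) < Metric.diam Y := by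
  classical
  have hle : ∀ p ∈ vp k '' {x | x ≠ 0} ∪ Set.range (ap k),
      ∀ q ∈ vp k '' {x | x ≠ 0} ∪ Set.range (ap k), dist p q ≤ √2 := by
    rintro _ (⟨x, hx, rfl⟩ | ⟨j, rfl⟩) _ (⟨y, hy, rfl⟩ | ⟨l, rfl⟩)
    · rw [dist_vp k hx hy]
      apply Real.sqrt_le_sqrt
      have := div_nonneg (sq_nonneg (x ⬝ᵥ y)) (mul_pos (self_pos hx) (self_pos hy)).le
      linarith
    · rw [dist_vp_ap k hx]
    · rw [dist_comm, dist_vp_ap k hy]
    · by_cases h : j = l
      · rw [h, dist_self]; positivity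
      · rw [dist_ap k h]
  have hb : Bornology.IsBounded (vp k '' {x | x ≠ 0} ∪ Set.range (ap k)) :=
    Metric.isBounded_iff.2 ⟨√2, fun p hp q hq => hle p hp q hq⟩
  have hd := Metric.diam_le_of_forall_dist_le (by positivity) hle
  refine ⟨_, hb, ?_, ?_⟩
  · have h0 : (Pi.single 0 1 : Fin 4 → ℝ) ≠ 0 := by simp
    have h1 : (Pi.single 1 1 : Fin 4 → ℝ) ≠ 0 := by simp
    refine lt_of_lt_of_le ?_ (Metric.dist_le_diam_of_mem hb (Or.inl ⟨_, h0, rfl⟩)
      (Or.inl ⟨_, h1, rfl⟩))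
    rw [dist_vp k h0 h1]
    simp
  rintro ⟨Z, hZ, hlt⟩
  have hin : ∀ i, ∀ p ∈ Z i, ∀ q ∈ Z i, dist p q ≤ Metric.diam (Z i) := fun i p hp q hq =>
    Metric.dist_le_diam_of_mem (hb.subset (hZ ▸ Set.subset_iUnion Z i)) hp hq
  have hlt' : ∀ i, Metric.diam (Z i) < √2 := fun i => (hlt i).trans_le hd
  have hcov : ∀ p ∈ vp k '' {x | x ≠ 0} ∪ Set.range (ap k), ∃ i, p ∈ Z i := by
    rw [← hZ]
    exact fun p hp => Set.mem_iUnion.1 hp
  choose π hπ using fun j => hcov (ap k j) (Or.inr ⟨j, rfl⟩)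
  have hπi : Function.Injective π := by
    intro j l h
    by_contra hne
    have := hin _ _ (hπ j) _ (h ▸ hπ l)
    rw [dist_ap k hne] at this
    linarith [hlt' (π j)]
  have key := (Col.ofOpen (I := {i // i ∉ Set.range π})
    (fun i => {x | x ≠ 0} ∩ vp k ⁻¹' Metric.thickening ((√2 - Metric.diam (Z i)) / 2) (Z i))
    (fun i => (continuousOn_vp k).isOpen_inter_preimage isOpen_ne Metric.isOpen_thickening)
    (fun i x c hc hx => ⟨smul_ne_zero hc hx.1, by
      rw [Set.mem_preimage, vp_smul k x hc]; exact hx.2⟩)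
    (fun x hx => by
      obtain ⟨i, hi⟩ := hcov _ (Or.inl ⟨x, hx, rfl⟩)
      refine ⟨⟨i, ?_⟩, hx, Metric.self_subset_thickening (half_pos (sub_pos.2 (hlt' i))) _ hi⟩
      rintro ⟨j, rfl⟩
      have := hin _ _ hi _ (hπ j)
      rw [dist_vp_ap k hx] at this
      linarith [hlt' (π j)])
    (fun i x hx y hy h0 => by
      obtain ⟨p, hp, h1⟩ := Metric.mem_thickening_iff.1 hx.2
      obtain ⟨q, hq, h2⟩ := Metric.mem_thickening_iff.1 hy.2
      have h3 := hin _ p hp q hq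
      have h4 := dist_triangle4_right (vp k x) (vp k y) p q
      rw [dist_vp k hx.1 hy.1, h0] at h4
      norm_num at h4
      linarith)).eleven_le
  rw [Fintype.card_subtype_compl, Fintype.card_fin, Set.card_range_of_injective hπi,
    Fintype.card_fin] at key
  omega

end Vale.Agent.P052
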